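import Crest.Agent.R050.Defs
import Crest.Agent.R050.Sd
import Crest.Agent.R050.Fan

/-!
# A four-colour cluster exists (Borsuk–Ulam / Fan on `S³`), for rid 50 (S0069)
-/

namespace Crest.Agent.R050

open scoped Quaternion

/-- the standard basis of the quaternions -/
noncomputable def eq4 : ℕ → ℍ[ℝ]
  | 0 => ⟨1, 0, 0, 0⟩
  | 1 => ⟨0, 1, 0, 0⟩
  | 2 => ⟨0, 0, 1, 0⟩
  | _ => ⟨0, 0, 0, 1⟩

/-- the antipodal map as a linear map -/
noncomputable def zneg : ℍ[ℝ] →ₗ[ℝ] ℍ[ℝ] := -LinearMap.id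

@[simp] theorem zneg_apply (v : ℍ[ℝ]) : zneg v = -v := by simp [zneg]

theorem mp_zneg_zneg (c : Ch ℍ[ℝ]) : mp zneg (mp zneg c) = c := by
  rw [mp_mp]
  have : ((zneg : ℍ[ℝ] → ℍ[ℝ]) ∘ zneg) = fun a => a := by
    funext v; simp
  rw [this, mp_id]

/-- the antipodal cell chains -/
noncomputable def bq : ℕ → Ch ℍ[ℝ]
  | 0 => sg [eq4 0]
  | n + 1 => cone (eq4 (n + 1)) (bq n + mp zneg (bq n))

theorem bd_bq_zero : bd (bq 0) = sg [] := by
  simp [bq, bd_cons]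

theorem bd_bq_sym (n : ℕ) : bd (bq n + mp zneg (bq n)) = 0 ∧
    bd (bq (n + 1)) = bq n + mp zneg (bq n) := by
  induction n with
  | zero =>
    have h : bd (bq 0 + mp zneg (bq 0)) = 0 := by
      rw [map_add, ← mp_bd, bd_bq_zero, mp_sg]
      simpa using two_self (sg ([] : List ℍ[ℝ]))
    refine ⟨h, ?_⟩
    rw [show bq (0 + 1) = cone (eq4 (0 + 1)) (bq 0 + mp zneg (bq 0)) from rfl, bd_cone, h,
      map_zero, add_zero]
  | succ n ih =>
    obtain ⟨_, h2⟩ := ih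
    have h : bd (bq (n + 1) + mp zneg (bq (n + 1))) = 0 := by
      rw [map_add, ← mp_bd, h2, map_add, mp_zneg_zneg, add_comm (mp zneg (bq n)) (bq n)]
      exact two_self _
    refine ⟨h, ?_⟩
    rw [show bq (n + 1 + 1) = cone (eq4 (n + 1 + 1)) (bq (n + 1) + mp zneg (bq (n + 1))) from rfl,
      bd_cone, h, map_zero, add_zero]

theorem bd_bq (n : ℕ) : bd (bq (n + 1)) = bq n + mp zneg (bq n) := (bd_bq_sym n).2

theorem norm_eq4 (i : ℕ) : ‖eq4 i‖ = 1 := by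
  have h : ‖eq4 i‖ ^ 2 = 1 := by
    rw [← real_inner_self_eq_norm_sq, Quaternion.inner_def]
    rcases i with _ | _ | _ | _ <;> simp [eq4]
  nlinarith [norm_nonneg (eq4 i)]

theorem inner_eq4 (i j : ℕ) (hij : i < j) (hj : j ≤ 3) : inner ℝ (eq4 j) (eq4 i) = 0 := by
  rw [Quaternion.inner_def]
  have hi : i ≤ 2 := by omega
  interval_cases j <;> interval_cases i <;> simp [eq4] at *

/-- simplices of `bq n`: pairwise orthogonal unit vectors `± e_i` -/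
def PB (n : ℕ) (l : List ℍ[ℝ]) : Prop :=
  l.length = n + 1 ∧ (∀ v ∈ l, ∃ i ≤ n, v = eq4 i ∨ v = -eq4 i) ∧
    l.Pairwise (fun v w => inner ℝ v w = 0)

theorem PB.neg {n : ℕ} {l : List ℍ[ℝ]} (h : PB n l) : PB n (l.map zneg) := by
  obtain ⟨h1, h2, h3⟩ := h
  refine ⟨by simpa using h1, ?_, ?_⟩
  · intro v hv
    obtain ⟨w, hw, rfl⟩ := List.mem_map.1 hv
    obtain ⟨i, hi, h | h⟩ := h2 w hw
    · exact ⟨i, hi, Or.inr (by rw [h]; simp)⟩
    · exact ⟨i, hi, Or.inl (by rw [h]; simp)⟩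
  · rw [List.pairwise_map]
    refine h3.imp ?_
    intro v w hvw
    simpa using hvw

theorem Sup_bq (n : ℕ) (hn : n ≤ 3) : Sup (PB n) (bq n) := by
  induction n with
  | zero =>
    refine Sup.sg ⟨rfl, ?_, ?_⟩
    · intro v hv
      exact ⟨0, le_rfl, Or.inl (by simpa using hv)⟩
    · simp
  | succ n ih =>
    have h := ih (by omega)
    refine Sup.cone (P := PB n) (Sup.add h (Sup.mp h fun l hl => hl.neg)) ?_
    rintro l ⟨h1, h2, h3⟩
    refine ⟨by simp [h1], ?_, ?_⟩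
    · intro v hv
      rcases List.mem_cons.1 hv with rfl | hv
      · exact ⟨n + 1, le_rfl, Or.inl rfl⟩
      · obtain ⟨i, hi, h⟩ := h2 v hv
        exact ⟨i, by omega, h⟩
    · rw [List.pairwise_cons]
      refine ⟨?_, h3⟩
      intro v hv
      obtain ⟨i, hi, h | h⟩ := h2 v hv
      · rw [h]; exact inner_eq4 i (n + 1) (by omega) hn
      · rw [h, inner_neg_right, inner_eq4 i (n + 1) (by omega) hn, neg_zero]

theorem PB.norm {n : ℕ} {l : List ℍ[ℝ]} (h : PB n l) : ∀ v ∈ l, ‖v‖ = 1 := by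
  intro v hv
  obtain ⟨i, _, h | h⟩ := h.2.1 v hv
  · rw [h, norm_eq4]
  · rw [h, norm_neg, norm_eq4]

theorem inner_list_sum_eq_zero (a : ℍ[ℝ]) (l : List ℍ[ℝ]) (h : ∀ w ∈ l, inner ℝ a w = 0) :
    inner ℝ a l.sum = 0 := by
  induction l with
  | nil => simp
  | cons b l ih =>
    rw [List.sum_cons, inner_add_right, h b List.mem_cons_self,
      ih fun w hw => h w (List.mem_cons_of_mem _ hw), add_zero]

theorem orth_sum (l : List ℍ[ℝ]) (h1 : ∀ v ∈ l, ‖v‖ = 1)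
    (h2 : l.Pairwise (fun v w => inner ℝ v w = 0)) :
    (∀ w ∈ l, inner ℝ w l.sum = 1) ∧ ‖l.sum‖ ^ 2 = l.length := by
  induction l with
  | nil => simp
  | cons a l ih =>
    rw [List.pairwise_cons] at h2
    obtain ⟨h2, h3⟩ := h2
    obtain ⟨i1, i2⟩ := ih (fun v hv => h1 v (List.mem_cons_of_mem _ hv)) h3
    have ha : inner ℝ a l.sum = 0 := inner_list_sum_eq_zero a l h2
    have haa : inner ℝ a a = 1 := by
      rw [real_inner_self_eq_norm_sq, h1 a List.mem_cons_self]; norm_num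
    refine ⟨?_, ?_⟩
    · intro w hw
      rcases List.mem_cons.1 hw with rfl | hw
      · rw [List.sum_cons, inner_add_right, haa, ha, add_zero]
      · rw [List.sum_cons, inner_add_right, i1 w hw, real_inner_comm, h2 w hw, zero_add]
    · rw [List.sum_cons, ← real_inner_self_eq_norm_sq, inner_add_left, inner_add_right,
        inner_add_right, haa, ha, real_inner_comm, ha, real_inner_self_eq_norm_sq, i2,
        List.length_cons]
      push_cast; ring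

theorem PB.hull {n : ℕ} (hn : n ≤ 3) {l : List ℍ[ℝ]} (h : PB n l) :
    ∀ v ∈ convexHull ℝ {w | w ∈ l}, 1 / 2 ≤ ‖v‖ := by
  obtain ⟨i1, i2⟩ := orth_sum l h.norm h.2.2
  have hσ : ‖l.sum‖ ≤ 2 := by
    have : ‖l.sum‖ ^ 2 ≤ 4 := by
      rw [i2, h.1]
      have : ((n : ℝ)) ≤ 3 := by exact_mod_cast hn
      push_cast; linarith
    nlinarith [norm_nonneg l.sum]
  intro v hv
  have hsub : convexHull ℝ {w | w ∈ l} ⊆ {w | (1 : ℝ) ≤ inner ℝ l.sum w} := by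
    apply convexHull_min
    · intro w hw
      have := i1 w hw
      rw [real_inner_comm] at this
      exact this.ge
    · exact convex_halfSpace_ge (innerₛₗ ℝ l.sum).isLinear 1
  have h1 : (1 : ℝ) ≤ inner ℝ l.sum v := hsub hv
  have h2 : inner ℝ l.sum v ≤ ‖l.sum‖ * ‖v‖ := real_inner_le_norm _ _
  nlinarith [norm_nonneg v, norm_nonneg l.sum]

theorem norm_normalize_sub_le {v w : ℍ[ℝ]} (hv : 1 / 2 ≤ ‖v‖) (hw : 1 / 2 ≤ ‖w‖) :
    ‖‖v‖⁻¹ • v - ‖w‖⁻¹ • w‖ ≤ 4 * ‖v - w‖ := by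
  have hv0 : 0 < ‖v‖ := by linarith
  have hw0 : 0 < ‖w‖ := by linarith
  have e : ‖v‖⁻¹ • v - ‖w‖⁻¹ • w = ‖v‖⁻¹ • (v - w) + (‖v‖⁻¹ - ‖w‖⁻¹) • w := by
    rw [smul_sub, sub_smul]; abel
  have h1 : ‖‖v‖⁻¹ • (v - w)‖ ≤ 2 * ‖v - w‖ := by
    rw [norm_smul, norm_inv, norm_norm]
    apply mul_le_mul_of_nonneg_right _ (norm_nonneg _)
    rw [inv_le_comm₀ hv0 (by norm_num)]; linarith
  have h2 : ‖(‖v‖⁻¹ - ‖w‖⁻¹) • w‖ ≤ 2 * ‖v - w‖ := by
    rw [norm_smul, Real.norm_eq_abs]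
    have h3 : (‖v‖⁻¹ - ‖w‖⁻¹) = ‖v‖⁻¹ * ((‖w‖ - ‖v‖) * ‖w‖⁻¹) := by
      field_simp
    rw [h3, abs_mul, abs_mul, abs_of_pos (inv_pos.2 hv0), abs_of_pos (inv_pos.2 hw0)]
    have h4 : |‖w‖ - ‖v‖| ≤ ‖v - w‖ := by
      rw [abs_sub_comm]; exact abs_norm_sub_norm_le v w
    have h5 : ‖v‖⁻¹ * (|‖w‖ - ‖v‖| * ‖w‖⁻¹) * ‖w‖ = ‖v‖⁻¹ * |‖w‖ - ‖v‖| := by
      field_simp
    rw [h5]
    have h6 : ‖v‖⁻¹ ≤ 2 := by
      rw [inv_le_comm₀ hv0 (by norm_num)]; linarith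
    exact mul_le_mul h6 h4 (abs_nonneg _) (by norm_num)
  rw [e]
  calc _ ≤ _ := norm_add_le _ _
    _ ≤ 4 * ‖v - w‖ := by linarith

section lab
variable {κ : ℍ[ℝ] → Fin 10} {δ : ℝ}

/-- reference vectors of the colours -/
def IsRef (κ : ℍ[ℝ] → Fin 10) (u : Fin 10 → ℍ[ℝ]) : Prop :=
  ∀ i, (∃ w, ‖w‖ = 1 ∧ κ w = i) → ‖u i‖ = 1 ∧ κ (u i) = i

theorem exists_ref (κ : ℍ[ℝ] → Fin 10) : ∃ u, IsRef κ u := by
  classical
  have h : ∀ i : Fin 10, ∃ w : ℍ[ℝ], (∃ w, ‖w‖ = 1 ∧ κ w = i) → ‖w‖ = 1 ∧ κ w = i := by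
    intro i
    by_cases hi : ∃ w, ‖w‖ = 1 ∧ κ w = i
    · obtain ⟨w, hw⟩ := hi
      exact ⟨w, fun _ => hw⟩
    · exact ⟨0, fun h => absurd h hi⟩
  choose u hu using h
  exact ⟨u, hu⟩

theorem ref_bound (h : GoodCol κ δ) {u : Fin 10 → ℍ[ℝ]} (hu : IsRef κ u) (v : ℍ[ℝ])
    (hv : 1 / 2 ≤ ‖v‖) : δ / 2 ≤ |inner ℝ v (u (κ v))| ∧ ‖u (κ v)‖ = 1 := by
  have hv0 : 0 < ‖v‖ := by linarith
  have hn : ‖‖v‖⁻¹ • v‖ = 1 := by
    rw [norm_smul, norm_inv, norm_norm, inv_mul_cancel₀ hv0.ne']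
  have hk : κ (‖v‖⁻¹ • v) = κ v := h.scal _ _ (inv_ne_zero hv0.ne')
  obtain ⟨h1, h2⟩ := hu (κ v) ⟨_, hn, hk⟩
  refine ⟨?_, h1⟩
  have h3 := h.sep (‖v‖⁻¹ • v) (u (κ v)) hn h1 (by rw [hk, h2])
  rw [inner_smul_left, abs_mul] at h3
  simp only [conj_trivial, abs_inv, abs_norm] at h3
  have h4 : δ * ‖v‖ ≤ |inner ℝ v (u (κ v))| := by
    have := mul_le_mul_of_nonneg_left h3 hv0.le
    rw [← mul_assoc, mul_inv_cancel₀ hv0.ne', one_mul] at this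
    linarith
  nlinarith [h.pos]

/-- the signed labelling -/
noncomputable def labq (κ : ℍ[ℝ] → Fin 10) (u : Fin 10 → ℍ[ℝ]) (v : ℍ[ℝ]) : Lab :=
  open Classical in ((κ v : ℕ), decide (0 < inner ℝ v (u (κ v))))

theorem lab_neg (h : GoodCol κ δ) {u : Fin 10 → ℍ[ℝ]} (hu : IsRef κ u) (v : ℍ[ℝ])
    (hv : 1 / 2 ≤ ‖v‖) : labq κ u (zneg v) = lneg (labq κ u v) := by
  have hk : κ (-v) = κ v := by
    have := h.scal (-1) v (by norm_num)
    simpa using this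
  have hb := (ref_bound h hu v hv).1
  have hne : inner ℝ v (u (κ v)) ≠ 0 := by
    intro h0
    rw [h0, abs_zero] at hb
    linarith [h.pos]
  unfold labq lneg
  rw [zneg_apply, hk, inner_neg_left]
  refine Prod.ext rfl ?_
  simp only
  rcases lt_or_gt_of_ne hne with h1 | h1
  · have h2 : ¬ (0 < inner ℝ v (u (κ v))) := by linarith
    simp [h1, h2]
  · have h2 : ¬ (0 < -inner ℝ v (u (κ v))) := by linarith
    simp [h1, h2]

theorem lab_ne (h : GoodCol κ δ) {u : Fin 10 → ℍ[ℝ]} (hu : IsRef κ u) (v w : ℍ[ℝ])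
    (hv : 1 / 2 ≤ ‖v‖) (hw : 1 / 2 ≤ ‖w‖) (hvw : dist v w ≤ δ / 2) :
    labq κ u v ≠ lneg (labq κ u w) := by
  intro heq
  have h1 : κ v = κ w := by
    have := congrArg Prod.fst heq
    simp only [labq, lneg] at this
    exact Fin.ext this
  have h2 := congrArg Prod.snd heq
  simp only [labq, lneg] at h2
  obtain ⟨b1, n1⟩ := ref_bound h hu v hv
  obtain ⟨b2, n2⟩ := ref_bound h hu w hw
  rw [← h1] at b2 h2
  set U := u (κ v)
  have h3 : |inner ℝ v U - inner ℝ w U| ≤ δ / 2 := by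
    rw [← inner_sub_left]
    calc |inner ℝ (v - w) U| ≤ ‖v - w‖ * ‖U‖ := abs_real_inner_le_norm _ _
      _ = dist v w := by rw [n1, mul_one, dist_eq_norm]
      _ ≤ δ / 2 := hvw
  have hpos := h.pos
  have h4 := abs_le.1 h3
  by_cases c1 : 0 < inner ℝ v U <;> by_cases c2 : 0 < inner ℝ w U
  · simp [c1, c2] at h2
  · rw [abs_of_pos c1] at b1
    rw [abs_of_nonpos (not_lt.1 c2)] at b2
    linarith [h4.2]
  · rw [abs_of_pos c2] at b2
    rw [abs_of_nonpos (not_lt.1 c1)] at b1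
    linarith [h4.1]
  · simp [c1, c2] at h2

end lab

/-- the statement of the Fan ladder lemma (see `Fan.lean`) -/
def FanLadder : Prop :=
  ∀ (z : ℍ[ℝ] → ℍ[ℝ]) (lab : ℍ[ℝ] → Lab) (C : ℕ → Ch ℍ[ℝ]) (n : ℕ), n ≤ 3 →
    bd (C 0) = sg [] → (∀ k, k < n → bd (C (k + 1)) = C k + mp z (C k)) →
    (∀ k, k ≤ n → Sup (fun l => l.length = k + 1 ∧ (∀ v ∈ l, lab (z v) = lneg (lab v)) ∧
      ∀ v ∈ l, ∀ w ∈ l, lab v ≠ lneg (lab w)) (C k)) →
    ev alt (mp lab (C n + mp z (C n))) = 1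

theorem exists_quad_of_fan (hfan : FanLadder) {κ : ℍ[ℝ] → Fin 10} {δ : ℝ} (h : GoodCol κ δ)
    {η : ℝ} (hη : 0 < η) : ∃ T : Finset (Fin 10), T.card = 4 ∧ Nv κ η T := by
  classical
  obtain ⟨u, hu⟩ := exists_ref κ
  have hμ : 0 < min (δ / 2) (η / 4) := lt_min (by linarith [h.pos]) (by linarith)
  obtain ⟨m, hm⟩ := exists_pow_lt_of_lt_one (half_pos hμ) (show (3 / 4 : ℝ) < 1 by norm_num)
  have hm2 : (3 / 4 : ℝ) ^ m * 2 ≤ min (δ / 2) (η / 4) := by linarith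
  have hmδ : (3 / 4 : ℝ) ^ m * 2 ≤ δ / 2 := hm2.trans (min_le_left _ _)
  have hmη : (3 / 4 : ℝ) ^ m * 2 ≤ η / 4 := hm2.trans (min_le_right _ _)
  -- the subdivided chains
  have hsup : ∀ k, k ≤ 3 → Sup (fun l => l.length = k + 1 ∧ (∀ v ∈ l, 1 / 2 ≤ ‖v‖) ∧
      ∀ v ∈ l, ∀ w ∈ l, dist v w ≤ (3 / 4 : ℝ) ^ m * 2) (SdI (k + 1) m (bq k)) := by
    intro k hk
    refine Sup.mono (Sup_SdI_chain (k + 1) (by omega) m (PB k) (bq k) 2 (Sup_bq k hk) ?_) ?_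
    · intro l hl
      refine ⟨hl.1, fun v hv w hw => ?_⟩
      calc dist v w ≤ ‖v‖ + ‖w‖ := by rw [dist_eq_norm]; exact norm_sub_le _ _
        _ = 2 := by rw [hl.norm v hv, hl.norm w hw]; norm_num
    · rintro l' ⟨a, ⟨l, hl, b⟩, c⟩
      exact ⟨a, fun v hv => hl.hull hk v (b v hv), c⟩
  have key : ev alt (mp (labq κ u) (SdI 4 m (bq 3) + mp zneg (SdI 4 m (bq 3)))) = 1 := by
    refine hfan zneg (labq κ u) (fun k => SdI (k + 1) m (bq k)) 3 le_rfl ?_ ?_ ?_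
    · show bd (SdI 1 m (bq 0)) = sg []
      rw [bd_SdI, bd_bq_zero, SdI_zero_left]
    · intro k _
      show bd (SdI (k + 1 + 1) m (bq (k + 1))) = SdI (k + 1) m (bq k) +
        mp zneg (SdI (k + 1) m (bq k))
      rw [bd_SdI, bd_bq, map_add, mp_SdI]
    · intro k hk
      refine Sup.mono (hsup k hk) ?_
      rintro l ⟨a, b, c⟩
      exact ⟨a, fun v hv => lab_neg h hu v (b v hv), fun v hv w hw =>
        lab_ne h hu v w (b v hv) (b w hw) ((c v hv w hw).trans hmδ)⟩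
  rw [ev_mp] at key
  have hsup4 : Sup (fun l => l.length = 4 ∧ (∀ v ∈ l, 1 / 2 ≤ ‖v‖) ∧
      ∀ v ∈ l, ∀ w ∈ l, dist v w ≤ (3 / 4 : ℝ) ^ m * 2)
      (SdI 4 m (bq 3) + mp zneg (SdI 4 m (bq 3))) := by
    refine Sup.add (hsup 3 le_rfl) (Sup.mp (hsup 3 le_rfl) ?_)
    rintro l ⟨a, b, c⟩
    refine ⟨by simpa using a, ?_, ?_⟩
    · intro v hv
      obtain ⟨w, hw, rfl⟩ := List.mem_map.1 hv
      simpa using b w hw
    · intro v hv w hw
      obtain ⟨v', hv', rfl⟩ := List.mem_map.1 hv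
      obtain ⟨w', hw', rfl⟩ := List.mem_map.1 hw
      have := c v' hv' w' hw'
      simpa [dist_neg_neg] using this
  obtain ⟨l, ⟨hlen, hnorm, hdist⟩, hl⟩ :=
    exists_of_ev_ne_zero hsup4 (by rw [key]; exact one_ne_zero)
  have hnod : ((l.map (labq κ u)).map Prod.fst).Nodup := by
    by_contra hcon
    apply hl
    simp only [alt]
    rw [if_neg]
    intro h'
    exact hcon h'.1
  have hnod2 : (l.map κ).Nodup := by
    have e : (l.map (labq κ u)).map Prod.fst = (l.map κ).map (fun i : Fin 10 => (i : ℕ)) := by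
      rw [List.map_map, List.map_map]
      rfl
    rw [e] at hnod
    exact List.Nodup.of_map _ hnod
  refine ⟨(l.map κ).toFinset, ?_, ?_⟩
  · rw [List.toFinset_card_of_nodup hnod2, List.length_map, hlen]
  · have hex : ∀ i : Fin 10, ∃ v : ℍ[ℝ], i ∈ (l.map κ).toFinset → v ∈ l ∧ κ v = i := by
      intro i
      by_cases hi : i ∈ (l.map κ).toFinset
      · obtain ⟨v, hv, hv'⟩ := List.mem_map.1 (List.mem_toFinset.1 hi)
        exact ⟨v, fun _ => ⟨hv, hv'⟩⟩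
      · exact ⟨0, fun h => absurd h hi⟩
    choose v hv using hex
    refine ⟨fun i => ‖v i‖⁻¹ • v i, ?_, ?_⟩
    · intro i hi
      obtain ⟨h1, h2⟩ := hv i hi
      have h0 : 0 < ‖v i‖ := by linarith [hnorm _ h1]
      refine ⟨?_, ?_⟩
      · rw [norm_smul, norm_inv, norm_norm, inv_mul_cancel₀ h0.ne']
      · rw [h.scal _ _ (inv_ne_zero h0.ne'), h2]
    · intro i hi j hj
      obtain ⟨h1, _⟩ := hv i hi
      obtain ⟨h2, _⟩ := hv j hj
      calc _ ≤ 4 * ‖v i - v j‖ := norm_normalize_sub_le (hnorm _ h1) (hnorm _ h2)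
        _ ≤ 4 * ((3 / 4 : ℝ) ^ m * 2) := by
          rw [← dist_eq_norm]
          linarith [hdist _ h1 _ h2]
        _ ≤ η := by linarith

theorem fanLadder : FanLadder := fun z lab C n _ h0 hb hs =>
  fan_ladder' z lab C n h0 hb fun k hk => (hs k hk).mono fun _ hl => ⟨hl.2.2, hl.2.1⟩

/-- Some four colours are realised in a small cluster. -/
theorem exists_quad {κ : ℍ[ℝ] → Fin 10} {δ : ℝ} (h : GoodCol κ δ) {η : ℝ} (hη : 0 < η) :
    ∃ T : Finset (Fin 10), T.card = 4 ∧ Nv κ η T :=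
  exists_quad_of_fan fanLadder h hη

end Crest.Agent.R050
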