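import Crest.Agent.R050.DRel
import Crest.Agent.R050.Sd

/-!
# Abstract coarse relations and their consequences for frame chains
-/

namespace Crest.Agent.R050

/-- The relations between the coarse chains. -/
structure CoarseRel {V : Type*} (X Y : V → V) (c0 Ex Ey F1 F2 G : Ch V) : Prop where
  b0 : bd c0 = sg []
  bx : bd Ex = c0 + mp X c0
  by' : bd Ey = c0 + mp Y c0
  bF1 : bd F1 = (Ex + mp X Ex + mp X (mp X Ex) + mp X (mp X (mp X Ex))) + (Ey + mp Y Ey)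
  bF2 : bd F2 = (Ex + mp X (mp Y Ex)) + (Ey + mp X Ey)
  bG : bd G = (F1 + mp X F1) + (F2 + mp X (mp Y F2))

section
variable {V : Type*} [AddCommGroup V] [Module ℝ V]

/-- relations are preserved by subdivision -/
theorem CoarseRel.sub {X Y : V →ₗ[ℝ] V} {c0 Ex Ey F1 F2 G : Ch V}
    (h : CoarseRel X Y c0 Ex Ey F1 F2 G) (m : ℕ) :
    CoarseRel X Y (SdI 1 m c0) (SdI 2 m Ex) (SdI 2 m Ey) (SdI 3 m F1) (SdI 3 m F2)
      (SdI 4 m G) := by
  constructor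
  · rw [bd_SdI, SdI_zero_left, h.b0]
  · rw [bd_SdI, h.bx, map_add, mp_SdI]
  · rw [bd_SdI, h.by', map_add, mp_SdI]
  · rw [bd_SdI, h.bF1]; simp only [map_add, mp_SdI]
  · rw [bd_SdI, h.bF2]; simp only [map_add, mp_SdI]
  · rw [bd_SdI, h.bG]; simp only [map_add, mp_SdI]

end

section
variable {V : Type*} {C : Type*} {X Y : V → V} {c0 Ex Ey F1 F2 G : Ch V}

theorem mp_X_of (f : V → Fr C) (hX : ∀ v, f (X v) = s12 (f v)) (c : Ch V) :
    mp f (mp X c) = mp s12 (mp f c) := by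
  rw [mp_mp, mp_mp]; congr 2; funext v; exact hX v

theorem mp_Y_of (f : V → Fr C) (hY : ∀ v, f (Y v) = f v) (c : Ch V) :
    mp f (mp Y c) = mp f c := by
  rw [mp_mp]; congr 2; funext v; exact hY v

theorem pr_X_of (f g : V → Fr C) (hX : ∀ v, f (X v) = s12 (f v))
    (gX : ∀ v, g (X v) = s12 (g v)) (c : Ch V) :
    pr f g (mp X c) = mp s12 (pr f g c) := by
  rw [pr_mp, mp_pr]
  have e1 : f ∘ X = s12 ∘ f := by funext v; exact hX v
  have e2 : g ∘ X = s12 ∘ g := by funext v; exact gX v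
  rw [e1, e2]

theorem pr_Y_of (f g : V → Fr C) (hY : ∀ v, f (Y v) = f v) (gY : ∀ v, g (Y v) = g v)
    (c : Ch V) : pr f g (mp Y c) = pr f g c := by
  rw [pr_mp]
  have e1 : f ∘ Y = f := by funext v; exact hY v
  have e2 : g ∘ Y = g := by funext v; exact gY v
  rw [e1, e2]

theorem s12_s12 (c : Ch (Fr C)) : mp s12 (mp s12 c) = c := by
  rw [mp_mp]
  exact mp_id c

/-- algebra behind `bd c₂ = (1 + s12) c₁` -/
theorem two_rel (L : Ch V →ₗ[ZMod 2] Ch (Fr C)) (hX : ∀ c, L (mp X c) = mp s12 (L c))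
    (hY : ∀ c, L (mp Y c) = L c) (h : CoarseRel X Y c0 Ex Ey F1 F2 G) :
    L (bd (F1 + F2)) = L (Ex + Ey) + mp s12 (L (Ex + Ey)) := by
  rw [map_add, h.bF1, h.bF2]
  simp only [map_add, hX, hY, s12_s12]
  have e1 := two_self (L Ex)
  have e2 := two_self (mp s12 (L Ex))
  have e3 := two_self (L Ey)
  calc _ = (L Ex + L Ex) + (mp s12 (L Ex) + mp s12 (L Ex)) + (L Ey + L Ey)
        + (L Ex + L Ey + (mp s12 (L Ex) + mp s12 (L Ey))) := by abel
    _ = _ := by rw [e1, e2, e3]; abel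

theorem one_rel (L : Ch V →ₗ[ZMod 2] Ch (Fr C)) (hX : ∀ c, L (mp X c) = mp s12 (L c))
    (hY : ∀ c, L (mp Y c) = L c) (h : CoarseRel X Y c0 Ex Ey F1 F2 G) :
    L (bd (Ex + Ey)) = L c0 + mp s12 (L c0) := by
  rw [map_add, h.bx, h.by']
  simp only [map_add, hX, hY]
  have e1 := two_self (L c0)
  calc _ = (L c0 + L c0) + (L c0 + mp s12 (L c0)) := by abel
    _ = _ := by rw [e1, zero_add]

theorem three_rel (L : Ch V →ₗ[ZMod 2] Ch (Fr C)) (hX : ∀ c, L (mp X c) = mp s12 (L c))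
    (hY : ∀ c, L (mp Y c) = L c) (h : CoarseRel X Y c0 Ex Ey F1 F2 G) :
    L (bd G) = L (F1 + F2) + mp s12 (L (F1 + F2)) := by
  rw [h.bG]
  simp only [map_add, hX, hY]
  abel

variable {f g : V → Fr C}

theorem frame_rel1 (hX : ∀ v, f (X v) = s12 (f v)) (hY : ∀ v, f (Y v) = f v)
    (h : CoarseRel X Y c0 Ex Ey F1 F2 G) :
    bd (mp f (Ex + Ey)) = mp f c0 + mp s12 (mp f c0) := by
  rw [← mp_bd]; exact one_rel (mp f) (mp_X_of f hX) (mp_Y_of f hY) h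

theorem frame_rel2 (hX : ∀ v, f (X v) = s12 (f v)) (hY : ∀ v, f (Y v) = f v)
    (h : CoarseRel X Y c0 Ex Ey F1 F2 G) :
    bd (mp f (F1 + F2)) = mp f (Ex + Ey) + mp s12 (mp f (Ex + Ey)) := by
  rw [← mp_bd]; exact two_rel (mp f) (mp_X_of f hX) (mp_Y_of f hY) h

theorem frame_rel3 (hX : ∀ v, f (X v) = s12 (f v)) (hY : ∀ v, f (Y v) = f v)
    (h : CoarseRel X Y c0 Ex Ey F1 F2 G) :
    bd (mp f G) = mp f (F1 + F2) + mp s12 (mp f (F1 + F2)) := by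
  rw [← mp_bd]; exact three_rel (mp f) (mp_X_of f hX) (mp_Y_of f hY) h

/-- homotopy between the 2-chains of two frame maps -/
theorem frame_hom (hX : ∀ v, f (X v) = s12 (f v)) (hY : ∀ v, f (Y v) = f v)
    (gX : ∀ v, g (X v) = s12 (g v)) (gY : ∀ v, g (Y v) = g v)
    (h : CoarseRel X Y c0 Ex Ey F1 F2 G) :
    mp f (F1 + F2) + mp g (F1 + F2) = bd (pr f g (F1 + F2)) +
      (pr f g (Ex + Ey) + mp s12 (pr f g (Ex + Ey))) := by
  rw [← bd_pr, two_rel (pr f g) (pr_X_of f g hX gX) (pr_Y_of f g hY gY) h]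

/-- symmetrised homotopy -/
theorem frame_hom_A3 (hX : ∀ v, f (X v) = s12 (f v)) (hY : ∀ v, f (Y v) = f v)
    (gX : ∀ v, g (X v) = s12 (g v)) (gY : ∀ v, g (Y v) = g v)
    (h : CoarseRel X Y c0 Ex Ey F1 F2 G) :
    A3 (mp f (F1 + F2)) + A3 (mp g (F1 + F2)) = bd (A3 (pr f g (F1 + F2))) +
      (A3 (pr f g (Ex + Ey)) + mp s23 (A3 (pr f g (Ex + Ey)))) := by
  rw [← A3_add, frame_hom hX hY gX gY h, A3_add, A3_add, A3_s12_eq, s23_A3_eq, bd_A3]

end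

end Crest.Agent.R050
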