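import Mathlib

/-!
# Mod 2 chains on lists (augmented), for rid 50 (S0069)

`Ch α` is the `ZMod 2`-module of formal sums of lists.  A list of length `k+1` is a `k`-simplex,
the empty list is the augmentation generator.
-/

namespace Crest.Agent.R050

open Finsupp

/-- mod 2 chains: formal sums of lists -/
abbrev Ch (α : Type*) := List α →₀ ZMod 2

/-- generator -/
noncomputable abbrev sg {α : Type*} (l : List α) : Ch α := Finsupp.single l 1

/-- linear extension of a function on lists -/
noncomputable abbrev lin {α M : Type*} [AddCommGroup M] [Module (ZMod 2) M] (f : List α → M) :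
    Ch α →ₗ[ZMod 2] M :=
  Finsupp.linearCombination (ZMod 2) f

section basic
variable {α β γ M : Type*} [AddCommGroup M] [Module (ZMod 2) M]

@[simp] theorem lin_sg (f : List α → M) (l : List α) : lin f (sg l) = f l := by
  simp [lin, sg]

theorem lin_ext {f g : Ch α →ₗ[ZMod 2] M} (h : ∀ l, f (sg l) = g (sg l)) : f = g := by
  apply Finsupp.lhom_ext'
  intro l
  apply LinearMap.ext_ring
  simpa using h l

theorem lin_ext_apply {f g : Ch α →ₗ[ZMod 2] M} (h : ∀ l, f (sg l) = g (sg l)) (c : Ch α) :
    f c = g c := by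
  rw [lin_ext h]

theorem two_self (m : M) : m + m = 0 := by
  have : (2 : ZMod 2) • m = 0 := by
    rw [show (2 : ZMod 2) = 0 from rfl, zero_smul]
  rw [two_smul] at this
  exact this

theorem neg_self (m : M) : -m = m := by
  rw [neg_eq_iff_add_eq_zero]; exact two_self m

/-- evaluation of a cochain on a chain -/
noncomputable abbrev ev (ψ : List α → ZMod 2) : Ch α →ₗ[ZMod 2] ZMod 2 := lin ψ

/-- cone with apex `a` -/
noncomputable def cone (a : α) : Ch α →ₗ[ZMod 2] Ch α := lin (fun l => sg (a :: l))

@[simp] theorem cone_sg (a : α) (l : List α) : cone a (sg l) = sg (a :: l) := by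
  simp [cone]

/-- boundary on lists -/
noncomputable def bdL : List α → Ch α
  | [] => 0
  | (a :: l) => sg l + cone a (bdL l)

/-- boundary -/
noncomputable def bd : Ch α →ₗ[ZMod 2] Ch α := lin bdL

@[simp] theorem bd_nil : bd (sg ([] : List α)) = 0 := by
  simp [bd, bdL]

theorem bd_cons (a : α) (l : List α) : bd (sg (a :: l)) = sg l + cone a (bd (sg l)) := by
  simp [bd, bdL]

theorem bd_cone (a : α) (c : Ch α) : bd (cone a c) = c + cone a (bd c) := by
  have : (bd ∘ₗ cone a : Ch α →ₗ[ZMod 2] Ch α) = LinearMap.id + cone a ∘ₗ bd := by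
    apply lin_ext
    intro l
    simp [bd_cons]
  exact congrArg (fun f => f c) this

theorem bd_bd_sg (l : List α) : bd (bd (sg l)) = 0 := by
  induction l with
  | nil => simp
  | cons a l ih =>
    rw [bd_cons, map_add, bd_cone, ih]
    simp [two_self]

@[simp] theorem bd_bd (c : Ch α) : bd (bd c) = 0 := by
  have : (bd ∘ₗ bd : Ch α →ₗ[ZMod 2] Ch α) = 0 := by
    apply lin_ext
    intro l
    simp [bd_bd_sg]
  exact congrArg (fun f => f c) this

/-- pushforward of chains -/
noncomputable def mp (f : α → β) : Ch α →ₗ[ZMod 2] Ch β := lin (fun l => sg (l.map f))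

@[simp] theorem mp_sg (f : α → β) (l : List α) : mp f (sg l) = sg (l.map f) := by
  simp [mp]

theorem mp_mp (g : β → γ) (f : α → β) (c : Ch α) : mp g (mp f c) = mp (g ∘ f) c := by
  have : (mp g ∘ₗ mp f : Ch α →ₗ[ZMod 2] Ch γ) = mp (g ∘ f) := by
    apply lin_ext
    intro l
    simp
  exact congrArg (fun f => f c) this

theorem mp_id (c : Ch α) : mp (fun a => a) c = c := by
  have : (mp (fun a => a) : Ch α →ₗ[ZMod 2] Ch α) = LinearMap.id := by
    apply lin_ext
    intro l
    simp
  exact congrArg (fun f => f c) this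

theorem mp_cone (f : α → β) (a : α) (c : Ch α) : mp f (cone a c) = cone (f a) (mp f c) := by
  have : (mp f ∘ₗ cone a : Ch α →ₗ[ZMod 2] Ch β) = cone (f a) ∘ₗ mp f := by
    apply lin_ext
    intro l
    simp
  exact congrArg (fun f => f c) this

theorem mp_bd (f : α → β) (c : Ch α) : mp f (bd c) = bd (mp f c) := by
  have : (mp f ∘ₗ bd : Ch α →ₗ[ZMod 2] Ch β) = bd ∘ₗ mp f := by
    apply lin_ext
    intro l
    induction l with
    | nil => simp
    | cons a l ih =>
      simp only [LinearMap.comp_apply, mp_sg] at ih ⊢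
      rw [bd_cons, map_add, mp_cone, ih]
      simp [bd_cons]
  exact congrArg (fun f => f c) this

theorem ev_mp (ψ : List β → ZMod 2) (f : α → β) (c : Ch α) :
    ev ψ (mp f c) = ev (fun l => ψ (l.map f)) c := by
  have : (ev ψ ∘ₗ mp f : Ch α →ₗ[ZMod 2] ZMod 2) = ev (fun l => ψ (l.map f)) := by
    apply lin_ext
    intro l
    simp
  exact congrArg (fun f => f c) this

theorem ev_add_left (ψ ψ' : List α → ZMod 2) (c : Ch α) :
    ev (fun l => ψ l + ψ' l) c = ev ψ c + ev ψ' c := by
  have : (ev (fun l => ψ l + ψ' l) : Ch α →ₗ[ZMod 2] ZMod 2) = ev ψ + ev ψ' := by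
    apply lin_ext
    intro l
    simp
  exact congrArg (fun f => f c) this

/-- the coboundary of a cochain -/
noncomputable def cob (ψ : List α → ZMod 2) : List α → ZMod 2 := fun l => ev ψ (bd (sg l))

theorem ev_bd (ψ : List α → ZMod 2) (c : Ch α) : ev ψ (bd c) = ev (cob ψ) c := by
  have : (ev ψ ∘ₗ bd : Ch α →ₗ[ZMod 2] ZMod 2) = ev (cob ψ) := by
    apply lin_ext
    intro l
    simp [cob]
  exact congrArg (fun f => f c) this

/-! ### Prism operator -/

/-- prism on lists: `Σ_i [f v₀, …, f vᵢ, g vᵢ, …, g vₙ]` -/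
noncomputable def prL (f g : α → β) : List α → Ch β
  | [] => 0
  | (a :: l) => sg (f a :: g a :: l.map g) + cone (f a) (prL f g l)

/-- prism operator -/
noncomputable def pr (f g : α → β) : Ch α →ₗ[ZMod 2] Ch β := lin (prL f g)

@[simp] theorem pr_nil (f g : α → β) : pr f g (sg ([] : List α)) = 0 := by
  simp [pr, prL]

theorem pr_cons (f g : α → β) (a : α) (l : List α) :
    pr f g (sg (a :: l)) = sg (f a :: g a :: l.map g) + cone (f a) (pr f g (sg l)) := by
  simp [pr, prL]

theorem pr_cone (f g : α → β) (a : α) (c : Ch α) :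
    pr f g (cone a c) = cone (f a) (cone (g a) (mp g c)) + cone (f a) (pr f g c) := by
  have : (pr f g ∘ₗ cone a : Ch α →ₗ[ZMod 2] Ch β)
      = cone (f a) ∘ₗ cone (g a) ∘ₗ mp g + cone (f a) ∘ₗ pr f g := by
    apply lin_ext
    intro l
    simp [pr_cons]
  exact congrArg (fun f => f c) this

theorem bd_pr_sg (f g : α → β) (l : List α) :
    bd (pr f g (sg l)) + pr f g (bd (sg l)) = mp f (sg l) + mp g (sg l) := by
  induction l with
  | nil => simp [two_self]
  | cons a l ih =>
    have h1 : bd (pr f g (sg (a :: l))) =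
        sg (g a :: l.map g) + cone (f a) (sg (l.map g) + cone (g a) (bd (sg (l.map g))))
          + (pr f g (sg l) + cone (f a) (bd (pr f g (sg l)))) := by
      rw [pr_cons, map_add, bd_cone, bd_cons, bd_cons]
    have h2 : pr f g (bd (sg (a :: l))) =
        pr f g (sg l) + (cone (f a) (cone (g a) (bd (sg (l.map g))))
          + cone (f a) (pr f g (bd (sg l)))) := by
      rw [bd_cons, map_add, pr_cone, mp_bd, mp_sg]
    have h3 : cone (f a) (bd (pr f g (sg l))) + cone (f a) (pr f g (bd (sg l)))
        = cone (f a) (sg (l.map f)) + cone (f a) (sg (l.map g)) := by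
      rw [← map_add, ih, map_add, mp_sg, mp_sg]
    rw [h1, h2]
    simp only [map_add, mp_sg, List.map_cons, cone_sg] at h3 ⊢
    have e := two_self (pr f g (sg l))
    have e2 := two_self (sg (f a :: l.map g) : Ch β)
    have e3 := two_self (cone (f a) (cone (g a) (bd (sg (l.map g)))))
    calc _ = sg (g a :: l.map g) + sg (f a :: l.map g)
            + (cone (f a) (bd (pr f g (sg l))) + cone (f a) (pr f g (bd (sg l))))
            + (cone (f a) (cone (g a) (bd (sg (l.map g))))
              + cone (f a) (cone (g a) (bd (sg (l.map g)))))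
            + (pr f g (sg l) + pr f g (sg l)) := by abel
      _ = sg (g a :: l.map g) + sg (f a :: l.map g)
            + (sg (f a :: l.map f) + sg (f a :: l.map g)) := by
          rw [h3, e, e3, add_zero, add_zero]
      _ = sg (f a :: l.map f) + sg (g a :: l.map g)
            + (sg (f a :: l.map g) + sg (f a :: l.map g)) := by abel
      _ = _ := by rw [e2, add_zero]

theorem bd_pr (f g : α → β) (c : Ch α) :
    bd (pr f g c) + pr f g (bd c) = mp f c + mp g c := by
  have : (bd ∘ₗ pr f g + pr f g ∘ₗ bd : Ch α →ₗ[ZMod 2] Ch β) = mp f + mp g := by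
    apply lin_ext
    intro l
    simpa using bd_pr_sg f g l
  exact congrArg (fun f => f c) this

theorem pr_mp (f g : β → γ) (h : α → β) (c : Ch α) :
    pr f g (mp h c) = pr (f ∘ h) (g ∘ h) c := by
  have : (pr f g ∘ₗ mp h : Ch α →ₗ[ZMod 2] Ch γ) = pr (f ∘ h) (g ∘ h) := by
    apply lin_ext
    intro l
    induction l with
    | nil => simp
    | cons a l ih =>
      simp only [LinearMap.comp_apply, mp_sg, List.map_cons] at ih ⊢
      rw [pr_cons, pr_cons, ih]
      simp
  exact congrArg (fun f => f c) this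

theorem mp_pr (f g : α → β) (h : β → γ) (c : Ch α) :
    mp h (pr f g c) = pr (h ∘ f) (h ∘ g) c := by
  have : (mp h ∘ₗ pr f g : Ch α →ₗ[ZMod 2] Ch γ) = pr (h ∘ f) (h ∘ g) := by
    apply lin_ext
    intro l
    induction l with
    | nil => simp
    | cons a l ih =>
      simp only [LinearMap.comp_apply] at ih ⊢
      rw [pr_cons, pr_cons, map_add, mp_cone, ih]
      simp
  exact congrArg (fun f => f c) this

/-! ### Supports -/

/-- `c` is supported on lists satisfying `P` -/
def Sup (P : List α → Prop) (c : Ch α) : Prop := ∀ l ∈ c.support, P l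

theorem Sup.mono {P Q : List α → Prop} {c : Ch α} (h : Sup P c) (hPQ : ∀ l, P l → Q l) :
    Sup Q c := fun l hl => hPQ l (h l hl)

@[simp] theorem Sup.zero {P : List α → Prop} : Sup P 0 := by
  intro l hl; simp at hl

theorem Sup.sg {P : List α → Prop} {l : List α} (h : P l) : Sup P (sg l) := by
  intro l' hl'
  have := Finsupp.support_single_subset hl'
  simp at this
  rw [this]; exact h

theorem Sup.add {P : List α → Prop} {c d : Ch α} (hc : Sup P c) (hd : Sup P d) :
    Sup P (c + d) := by
  classical
  intro l hl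
  rcases Finset.mem_union.1 (Finsupp.support_add hl) with h | h
  · exact hc l h
  · exact hd l h

theorem Sup.sum {P : List α → Prop} {ι : Type*} {s : Finset ι} {f : ι → Ch α}
    (h : ∀ i ∈ s, Sup P (f i)) : Sup P (∑ i ∈ s, f i) := by
  classical
  induction s using Finset.induction_on with
  | empty => simp
  | insert a s ha ih =>
    rw [Finset.sum_insert ha]
    exact Sup.add (h a (Finset.mem_insert_self _ _))
      (ih fun i hi => h i (Finset.mem_insert_of_mem hi))

theorem Sup.smul {P : List α → Prop} {c : Ch α} (hc : Sup P c) (r : ZMod 2) :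
    Sup P (r • c) := fun l hl => hc l (Finsupp.support_smul hl)

/-- linear extension and supports -/
theorem Sup.lin {P : List α → Prop} {Q : List β → Prop} {f : List α → Ch β} {c : Ch α}
    (hc : Sup P c) (h : ∀ l, P l → Sup Q (f l)) : Sup Q (lin f c) := by
  rw [show Crest.Agent.R050.lin f c = ∑ l ∈ c.support, c l • f l from rfl]
  exact Sup.sum fun l hl => Sup.smul (h l (hc l hl)) _

/-- to prove a support claim for a linear image it suffices to do it on generators -/
theorem Sup.map {P : List α → Prop} {Q : List β → Prop} {F : Ch α →ₗ[ZMod 2] Ch β} {c : Ch α}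
    (hc : Sup P c) (h : ∀ l, P l → Sup Q (F (Crest.Agent.R050.sg l))) : Sup Q (F c) := by
  have : F = Crest.Agent.R050.lin (fun l => F (Crest.Agent.R050.sg l)) := by
    apply lin_ext; intro l; simp
  rw [this]
  exact Sup.lin hc h

theorem Sup.cone {P Q : List α → Prop} {a : α} {c : Ch α}
    (hc : Sup P c) (h : ∀ l, P l → Q (a :: l)) : Sup Q (cone a c) :=
  Sup.map hc fun l hl => by rw [cone_sg]; exact Sup.sg (h l hl)

theorem Sup.mp {P : List α → Prop} {Q : List β → Prop} {f : α → β} {c : Ch α}
    (hc : Sup P c) (h : ∀ l, P l → Q (l.map f)) : Sup Q (mp f c) :=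
  Sup.map hc fun l hl => by rw [mp_sg]; exact Sup.sg (h l hl)

/-- two cochains agreeing on the support have the same value -/
theorem ev_congr {P : List α → Prop} {c : Ch α} (hc : Sup P c) {ψ ψ' : List α → ZMod 2}
    (h : ∀ l, P l → ψ l = ψ' l) : ev ψ c = ev ψ' c := by
  rw [show ev ψ c = ∑ l ∈ c.support, c l • ψ l from rfl,
    show ev ψ' c = ∑ l ∈ c.support, c l • ψ' l from rfl]
  exact Finset.sum_congr rfl fun l hl => by rw [h l (hc l hl)]

theorem ev_eq_zero {P : List α → Prop} {c : Ch α} (hc : Sup P c) {ψ : List α → ZMod 2}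
    (h : ∀ l, P l → ψ l = 0) : ev ψ c = 0 := by
  rw [show ev ψ c = ∑ l ∈ c.support, c l • ψ l from rfl]
  exact Finset.sum_eq_zero fun l hl => by rw [h l (hc l hl), smul_zero]

/-- a nonzero value yields a witness in the support -/
theorem exists_of_ev_ne_zero {P : List α → Prop} {c : Ch α} (hc : Sup P c)
    {ψ : List α → ZMod 2} (h : ev ψ c ≠ 0) : ∃ l, P l ∧ ψ l ≠ 0 := by
  by_contra hcon
  push Not at hcon
  exact h (ev_eq_zero hc hcon)

end basic

end Crest.Agent.R050
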