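import Crest.Agent.R050.QuatFrame

/-!
# The two right multiplications `Xm`, `Ym` (rid 50): coordinates
-/

namespace Crest.Agent.R050

open scoped Quaternion

theorem Ym_Ym (v : ℍ[ℝ]) : Ym (Ym v) = -v := Ym_sq v

theorem Xm_four (v : ℍ[ℝ]) : Xm (Xm (Xm (Xm v))) = -v := Xm_pow4 v

theorem inner_coord (u v : ℍ[ℝ]) :
    inner ℝ u v = u.re * v.re + u.imI * v.imI + u.imJ * v.imJ + u.imK * v.imK := by
  rw [Quaternion.inner_def]; simp

end Crest.Agent.R050
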