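import Crest.Agent.R050.Chain
import Crest.Agent.R050.QMaps

/-!
# Coarse `Q₁₆` chains (rid 50)

Abstract part: `X Y : α → α` with `X⁴ = Y²` and `X Y X = Y`; chains `Ex, Ey, F1, F2, G` with
prescribed boundaries.  Geometric part: the vertices are unit quaternions with pairwise
nonnegative inner products, hence convex hulls stay away from `0`.
-/

namespace Crest.Agent.R050

open scoped Quaternion

namespace Coarse

section abstract_part
variable {α : Type*} (X Y : α → α) (o : α)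

/-- `[o, X o]` -/
noncomputable def Ex : Ch α := sg [o, X o]
/-- `[o, Y o]` -/
noncomputable def Ey : Ch α := sg [o, Y o]
/-- `(1+X+X²+X³) Ex + (1+Y) Ey` -/
noncomputable def z1 : Ch α :=
  (Ex X o + mp X (Ex X o) + mp X (mp X (Ex X o)) + mp X (mp X (mp X (Ex X o))))
    + (Ey Y o + mp Y (Ey Y o))
/-- `cone (Y o) z1` -/
noncomputable def F1 : Ch α := cone (Y o) (z1 X Y o)
/-- `(1+XY) Ex + (1+X) Ey` -/
noncomputable def z2 : Ch α :=
  (Ex X o + mp X (mp Y (Ex X o))) + (Ey Y o + mp X (Ey Y o))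
/-- `cone (Y o) z2` -/
noncomputable def F2 : Ch α := cone (Y o) (z2 X Y o)
/-- `(1+X) F1 + (1+XY) F2` -/
noncomputable def c2 : Ch α :=
  (F1 X Y o + mp X (F1 X Y o)) + (F2 X Y o + mp X (mp Y (F2 X Y o)))
/-- `cone (Y o) c2` -/
noncomputable def G : Ch α := cone (Y o) (c2 X Y o)

theorem bd_pair (a b : α) : bd (sg [a, b]) = sg [a] + sg [b] := by
  rw [bd_cons, bd_cons]
  simp [add_comm]

theorem bd_Ex : bd (Ex X o) = sg [o] + mp X (sg [o]) := by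
  rw [Ex, bd_pair]; simp

theorem bd_Ey : bd (Ey Y o) = sg [o] + mp Y (sg [o]) := by
  rw [Ey, bd_pair]; simp

variable {X Y} (h1 : ∀ v, X (X (X (X v))) = Y (Y v)) (h2 : ∀ v, X (Y (X v)) = Y v)

include h1 in
theorem mp4 (c : Ch α) : mp X (mp X (mp X (mp X c))) = mp Y (mp Y c) := by
  simp only [mp_mp]
  congr 2
  funext v
  simp [h1]

include h2 in
theorem mpXYX (c : Ch α) : mp X (mp Y (mp X c)) = mp Y c := by
  simp only [mp_mp]
  congr 2
  funext v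
  simp [h2]

include h1 in
theorem bd_z1 : bd (z1 X Y o) = 0 := by
  have e : bd (z1 X Y o) =
      ((sg [o] + mp X (sg [o])) + mp X (sg [o] + mp X (sg [o]))
        + mp X (mp X (sg [o] + mp X (sg [o])))
        + mp X (mp X (mp X (sg [o] + mp X (sg [o])))))
      + ((sg [o] + mp Y (sg [o])) + mp Y (sg [o] + mp Y (sg [o]))) := by
    simp only [z1, map_add, ← mp_bd, bd_Ex, bd_Ey]
  rw [e]
  simp only [map_add]
  rw [mp4 h1]
  have t : ∀ m : Ch α, m + m = 0 := two_self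
  set a0 := sg [o]
  set a1 := mp X (sg [o])
  set a2 := mp X a1
  set a3 := mp X a2
  set b1 := mp Y (sg [o])
  set b2 := mp Y b1
  calc a0 + a1 + (a1 + a2) + (a2 + a3) + (a3 + b2) + (a0 + b1 + (b1 + b2))
      = (a0 + a0) + (a1 + a1) + (a2 + a2) + (a3 + a3) + (b1 + b1) + (b2 + b2) := by abel
    _ = 0 := by simp only [t]

include h1 in
theorem bd_F1 : bd (F1 X Y o) = z1 X Y o := by
  rw [F1, bd_cone, bd_z1 o h1]; simp

include h2 in
theorem bd_z2 : bd (z2 X Y o) = 0 := by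
  have e : bd (z2 X Y o) =
      ((sg [o] + mp X (sg [o])) + mp X (mp Y (sg [o] + mp X (sg [o]))))
      + ((sg [o] + mp Y (sg [o])) + mp X (sg [o] + mp Y (sg [o]))) := by
    simp only [z2, map_add, ← mp_bd, bd_Ex, bd_Ey]
  rw [e]
  simp only [map_add]
  rw [mpXYX h2]
  have t : ∀ m : Ch α, m + m = 0 := two_self
  set a0 := sg [o]
  set a1 := mp X (sg [o])
  set b1 := mp Y (sg [o])
  set c1 := mp X b1
  calc a0 + a1 + (c1 + b1) + (a0 + b1 + (a1 + c1))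
      = (a0 + a0) + (a1 + a1) + (b1 + b1) + (c1 + c1) := by abel
    _ = 0 := by simp only [t]

include h2 in
theorem bd_F2 : bd (F2 X Y o) = z2 X Y o := by
  rw [F2, bd_cone, bd_z2 o h2]; simp

include h1 h2 in
theorem bd_c2 : bd (c2 X Y o) = 0 := by
  have e : bd (c2 X Y o) =
      (z1 X Y o + mp X (z1 X Y o)) + (z2 X Y o + mp X (mp Y (z2 X Y o))) := by
    simp only [c2, map_add, ← mp_bd, bd_F1 o h1, bd_F2 o h2]
  rw [e]
  simp only [z1, z2, map_add]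
  rw [mp4 h1]
  have hXY : mp X (mp Y (mp X (mp Y (Ex X o)))) = mp Y (mp Y (Ex X o)) := mpXYX h2 _
  have hXYX : mp X (mp Y (mp X (Ey Y o))) = mp Y (Ey Y o) := mpXYX h2 _
  rw [hXY, hXYX]
  have t : ∀ m : Ch α, m + m = 0 := two_self
  set a0 := Ex X o
  set a1 := mp X a0
  set a2 := mp X a1
  set a3 := mp X a2
  set b0 := Ey Y o
  set b1 := mp Y b0
  set b2 := mp X b0
  set b3 := mp X b1
  set d1 := mp X (mp Y a0)
  set d2 := mp Y (mp Y a0)
  calc a0 + a1 + a2 + a3 + (b0 + b1) + (a1 + a2 + a3 + d2 + (b2 + b3)) +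
        (a0 + d1 + (b0 + b2) + (d1 + d2 + (b3 + b1)))
      = (a0 + a0) + (a1 + a1) + (a2 + a2) + (a3 + a3) + (b0 + b0) + (b1 + b1) + (b2 + b2)
        + (b3 + b3) + (d1 + d1) + (d2 + d2) := by abel
    _ = 0 := by simp only [t]

include h1 h2 in
theorem bd_G : bd (G X Y o) = c2 X Y o := by
  rw [G, bd_cone, bd_c2 o h1 h2]; simp

end abstract_part

/-! ### Geometry of the vertices -/

/-- a list of unit vectors with pairwise nonnegative inner products -/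
structure Acute {E : Type*} [NormedAddCommGroup E] [InnerProductSpace ℝ E] (l : List E) :
    Prop where
  unit : ∀ v ∈ l, ‖v‖ = 1
  ac : ∀ v ∈ l, ∀ w ∈ l, 0 ≤ inner ℝ v w

theorem Acute.norm_ge {E : Type*} [NormedAddCommGroup E] [InnerProductSpace ℝ E] {l : List E}
    (h : Acute l) (hl : l.length ≤ 4) {v : E} (hv : v ∈ convexHull ℝ {x | x ∈ l}) :
    1 / 2 ≤ ‖v‖ := by
  classical
  have hs : {x | x ∈ l} = (↑(l.toFinset) : Set E) := by
    ext x; simp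
  rw [hs, Finset.mem_convexHull'] at hv
  obtain ⟨w, hw0, hw1, rfl⟩ := hv
  have hcard : (l.toFinset.card : ℝ) ≤ 4 := by
    have := (List.toFinset_card_le l).trans hl
    exact_mod_cast this
  have h1 : (1 : ℝ) ≤ 4 * ∑ y ∈ l.toFinset, w y ^ 2 := by
    have := sq_sum_le_card_mul_sum_sq (s := l.toFinset) (f := w)
    rw [hw1] at this
    have h0 : 0 ≤ ∑ y ∈ l.toFinset, w y ^ 2 := Finset.sum_nonneg fun _ _ => sq_nonneg _
    nlinarith
  have h2 : ∑ y ∈ l.toFinset, w y ^ 2 ≤ ‖∑ y ∈ l.toFinset, w y • y‖ ^ 2 := by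
    rw [← real_inner_self_eq_norm_sq, sum_inner]
    refine Finset.sum_le_sum fun y hy => ?_
    rw [inner_sum]
    have hy' : y ∈ l := by simpa using hy
    calc w y ^ 2 = inner ℝ (w y • y) (w y • y) := by
          rw [inner_smul_left, inner_smul_right, real_inner_self_eq_norm_sq, h.unit y hy']
          simp; ring
      _ ≤ ∑ z ∈ l.toFinset, inner ℝ (w y • y) (w z • z) := by
          refine Finset.single_le_sum (f := fun z => inner ℝ (w y • y) (w z • z)) ?_ hy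
          intro z hz
          have hz' : z ∈ l := by simpa using hz
          show 0 ≤ inner ℝ (w y • y) (w z • z)
          rw [inner_smul_left, inner_smul_right]
          have a := hw0 y hy
          have b := hw0 z hz
          have c := h.ac y hy' z hz'
          simp only [conj_trivial]
          positivity
  have h3 : 0 ≤ ‖∑ y ∈ l.toFinset, w y • y‖ := norm_nonneg _
  nlinarith

/-- `P i = Xᵢ 1` -/
noncomputable def Pv (i : ℕ) : ℍ[ℝ] := (fun v => Xm v)^[i] 1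
/-- `Q i = Xᵢ (Y 1)` -/
noncomputable def Qv (i : ℕ) : ℍ[ℝ] := (fun v => Xm v)^[i] (Ym 1)

theorem Pv_succ (i : ℕ) : Pv (i + 1) = Xm (Pv i) := Function.iterate_succ_apply' _ _ _
theorem Qv_succ (i : ℕ) : Qv (i + 1) = Xm (Qv i) := Function.iterate_succ_apply' _ _ _
theorem Pv_zero : Pv 0 = 1 := rfl
theorem Qv_zero : Qv 0 = Ym 1 := rfl

theorem norm_Pv (i : ℕ) : ‖Pv i‖ = 1 := by
  induction i with
  | zero => simp [Pv_zero]
  | succ i ih => rw [Pv_succ, norm_Xm, ih]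

theorem norm_Qv (i : ℕ) : ‖Qv i‖ = 1 := by
  induction i with
  | zero => rw [Qv_zero, norm_Ym]; simp
  | succ i ih => rw [Qv_succ, norm_Xm, ih]

theorem inner_Pv_Pv (i : ℕ) : inner ℝ (Pv i) (Pv (i + 1)) = Real.sqrt 2 / 2 := by
  induction i with
  | zero =>
    rw [Pv_succ, Pv_zero, Xm_apply, one_mul, inner_coord]
    simp [qX_re, qX_imI, qX_imJ, qX_imK]
  | succ i ih => rw [Pv_succ, Pv_succ (i + 1), inner_Xm, ih]

theorem inner_Qv_Qv (i : ℕ) : inner ℝ (Qv i) (Qv (i + 1)) = Real.sqrt 2 / 2 := by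
  induction i with
  | zero =>
    rw [Qv_succ, Qv_zero, Xm_apply, Ym_apply, one_mul, inner_coord]
    simp [qX_re, qX_imI, qX_imJ, qX_imK, qY_re, qY_imI, qY_imJ, qY_imK]
  | succ i ih => rw [Qv_succ, Qv_succ (i + 1), inner_Xm, ih]

theorem Pv_coord (i : ℕ) : (Pv i).imI = 0 ∧ (Pv i).imJ = 0 := by
  induction i with
  | zero => simp [Pv_zero]
  | succ i ih =>
    rw [Pv_succ, Xm_apply]
    simp [qX_re, qX_imI, qX_imJ, qX_imK, ih]

theorem Qv_coord (i : ℕ) : (Qv i).re = 0 ∧ (Qv i).imK = 0 := by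
  induction i with
  | zero =>
    rw [Qv_zero, Ym_apply]
    simp [qY_re, qY_imI, qY_imJ, qY_imK]
  | succ i ih =>
    rw [Qv_succ, Xm_apply]
    simp [qX_re, qX_imI, qX_imJ, qX_imK, ih]

theorem inner_Pv_Qv (i j : ℕ) : inner ℝ (Pv i) (Qv j) = 0 := by
  rw [inner_coord]
  simp [Pv_coord, Qv_coord]

theorem sqrt2_half_nonneg : 0 ≤ Real.sqrt 2 / 2 := by positivity

/-- vertices allowed in one simplex -/
def VL (i : ℕ) (l : List ℍ[ℝ]) : Prop :=
  ∀ v ∈ l, v = Pv i ∨ v = Pv (i + 1) ∨ v = Qv 0 ∨ v = Qv 1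

theorem VL.acute {i : ℕ} {l : List ℍ[ℝ]} (h : VL i l) : Acute l := by
  constructor
  · intro v hv
    rcases h v hv with rfl | rfl | rfl | rfl
    · exact norm_Pv _
    · exact norm_Pv _
    · exact norm_Qv _
    · exact norm_Qv _
  · have n := sqrt2_half_nonneg
    have sp : ∀ i, (0 : ℝ) ≤ inner ℝ (Pv i) (Pv i) := fun i => real_inner_self_nonneg
    have sq : ∀ i, (0 : ℝ) ≤ inner ℝ (Qv i) (Qv i) := fun i => real_inner_self_nonneg
    intro v hv w hw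
    rcases h v hv with rfl | rfl | rfl | rfl <;> rcases h w hw with rfl | rfl | rfl | rfl
    · exact sp _
    · rw [inner_Pv_Pv]; exact n
    · rw [inner_Pv_Qv]
    · rw [inner_Pv_Qv]
    · rw [real_inner_comm, inner_Pv_Pv]; exact n
    · exact sp _
    · rw [inner_Pv_Qv]
    · rw [inner_Pv_Qv]
    · rw [real_inner_comm, inner_Pv_Qv]
    · rw [real_inner_comm, inner_Pv_Qv]
    · exact sq _
    · rw [inner_Qv_Qv 0]; exact n
    · rw [real_inner_comm, inner_Pv_Qv]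
    · rw [real_inner_comm, inner_Pv_Qv]
    · rw [real_inner_comm, inner_Qv_Qv 0]; exact n
    · exact sq _

theorem VL.cons {i : ℕ} {l : List ℍ[ℝ]} (h : VL i l) : VL i (Qv 0 :: l) := by
  intro v hv
  rcases List.mem_cons.1 hv with rfl | hv
  · simp
  · exact h v hv

/-- the support predicate -/
def SP (n : ℕ) (l : List ℍ[ℝ]) : Prop := l.length = n ∧ ∃ i, VL i l

theorem SP.acute {n : ℕ} {l : List ℍ[ℝ]} (h : SP n l) : Acute l := by
  obtain ⟨_, i, hi⟩ := h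
  exact hi.acute

theorem SP.cons {n : ℕ} {l : List ℍ[ℝ]} (h : SP n l) : SP (n + 1) (Qv 0 :: l) := by
  obtain ⟨hn, i, hi⟩ := h
  exact ⟨by simp [hn], i, hi.cons⟩

theorem X_P (i : ℕ) : Xm (Pv i) = Pv (i + 1) := (Pv_succ i).symm
theorem X_Q0 : Xm (Qv 0) = Qv 1 := rfl
theorem Y_P0 : Ym (Pv 0) = Qv 0 := rfl
theorem Y_Q0 : Ym (Qv 0) = Pv 4 := by
  rw [Qv_zero, Ym_Ym, Pv_succ, Pv_succ, Pv_succ, Pv_succ, Pv_zero, Xm_four]
theorem XY_P1 : Xm (Ym (Pv 1)) = Qv 0 := by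
  rw [Pv_succ, Pv_zero, Xm_Ym_Xm]; rfl
theorem XY_Q1 : Xm (Ym (Qv 1)) = Pv 4 := by
  rw [Qv_succ, Xm_Ym_Xm, Y_Q0]
theorem XY_P0 : Xm (Ym (Pv 0)) = Qv 1 := rfl
theorem XY_Q0 : Xm (Ym (Qv 0)) = Pv 5 := by rw [Y_Q0, X_P]

theorem Ex_eq : Ex (fun v => Xm v) (1 : ℍ[ℝ]) = sg [Pv 0, Pv 1] := rfl
theorem Ey_eq : Ey (fun v => Ym v) (1 : ℍ[ℝ]) = sg [Pv 0, Qv 0] := rfl

theorem z1_eq : z1 (fun v => Xm v) (fun v => Ym v) (1 : ℍ[ℝ]) =
    (sg [Pv 0, Pv 1] + sg [Pv 1, Pv 2] + sg [Pv 2, Pv 3] + sg [Pv 3, Pv 4])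
      + (sg [Pv 0, Qv 0] + sg [Qv 0, Pv 4]) := by
  rw [z1, Ex_eq, Ey_eq]
  simp only [mp_sg, List.map_cons, List.map_nil, X_P, Y_P0, Y_Q0]

theorem z2_eq : z2 (fun v => Xm v) (fun v => Ym v) (1 : ℍ[ℝ]) =
    (sg [Pv 0, Pv 1] + sg [Qv 1, Qv 0]) + (sg [Pv 0, Qv 0] + sg [Pv 1, Qv 1]) := by
  rw [z2, Ex_eq, Ey_eq]
  simp only [mp_sg, List.map_cons, List.map_nil, X_P, XY_P0, XY_P1, X_Q0]

theorem F1_eq : F1 (fun v => Xm v) (fun v => Ym v) (1 : ℍ[ℝ]) =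
    (sg [Qv 0, Pv 0, Pv 1] + sg [Qv 0, Pv 1, Pv 2] + sg [Qv 0, Pv 2, Pv 3]
      + sg [Qv 0, Pv 3, Pv 4]) + (sg [Qv 0, Pv 0, Qv 0] + sg [Qv 0, Qv 0, Pv 4]) := by
  rw [F1, z1_eq]
  simp only [map_add, cone_sg]
  rfl

theorem F2_eq : F2 (fun v => Xm v) (fun v => Ym v) (1 : ℍ[ℝ]) =
    (sg [Qv 0, Pv 0, Pv 1] + sg [Qv 0, Qv 1, Qv 0])
      + (sg [Qv 0, Pv 0, Qv 0] + sg [Qv 0, Pv 1, Qv 1]) := by
  rw [F2, z2_eq]
  simp only [map_add, cone_sg]
  rfl

theorem sup_aux (i : ℕ) {l : List ℍ[ℝ]} {n : ℕ} (h1 : l.length = n)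
    (h : VL i l) : Sup (SP n) (sg l) := Sup.sg ⟨h1, i, h⟩

theorem Ex_sup : Sup (SP 2) (Ex (fun v => Xm v) (1 : ℍ[ℝ])) := by
  rw [Ex_eq]
  exact sup_aux 0 rfl (by intro v hv; simp at hv ⊢; tauto)

theorem Ey_sup : Sup (SP 2) (Ey (fun v => Ym v) (1 : ℍ[ℝ])) := by
  rw [Ey_eq]
  exact sup_aux 0 rfl (by intro v hv; simp at hv ⊢; tauto)

theorem F1_sup : Sup (SP 3) (F1 (fun v => Xm v) (fun v => Ym v) (1 : ℍ[ℝ])) := by
  rw [F1_eq]
  refine Sup.add (Sup.add (Sup.add (Sup.add ?_ ?_) ?_) ?_) (Sup.add ?_ ?_)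
  · exact sup_aux 0 rfl (by intro v hv; simp at hv ⊢; tauto)
  · exact sup_aux 1 rfl (by intro v hv; simp at hv ⊢; tauto)
  · exact sup_aux 2 rfl (by intro v hv; simp at hv ⊢; tauto)
  · exact sup_aux 3 rfl (by intro v hv; simp at hv ⊢; tauto)
  · exact sup_aux 0 rfl (by intro v hv; simp at hv ⊢; tauto)
  · exact sup_aux 4 rfl (by intro v hv; simp at hv ⊢; tauto)

theorem F2_sup : Sup (SP 3) (F2 (fun v => Xm v) (fun v => Ym v) (1 : ℍ[ℝ])) := by
  rw [F2_eq]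
  refine Sup.add (Sup.add ?_ ?_) (Sup.add ?_ ?_)
  · exact sup_aux 0 rfl (by intro v hv; simp at hv ⊢; tauto)
  · exact sup_aux 0 rfl (by intro v hv; simp at hv ⊢; tauto)
  · exact sup_aux 0 rfl (by intro v hv; simp at hv ⊢; tauto)
  · exact sup_aux 1 rfl (by intro v hv; simp at hv ⊢; tauto)

theorem G_sup : Sup (SP 4) (G (fun v => Xm v) (fun v => Ym v) (1 : ℍ[ℝ])) := by
  have key : Sup (SP 3) (c2 (fun v => Xm v) (fun v => Ym v) (1 : ℍ[ℝ])) := by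
    refine Sup.add (Sup.add F1_sup ?_) (Sup.add F2_sup ?_)
    · rw [F1_eq]
      simp only [map_add, mp_sg, List.map_cons, List.map_nil, X_P, X_Q0]
      refine Sup.add (Sup.add (Sup.add (Sup.add ?_ ?_) ?_) ?_) (Sup.add ?_ ?_)
      · exact sup_aux 1 rfl (by intro v hv; simp at hv ⊢; tauto)
      · exact sup_aux 2 rfl (by intro v hv; simp at hv ⊢; tauto)
      · exact sup_aux 3 rfl (by intro v hv; simp at hv ⊢; tauto)
      · exact sup_aux 4 rfl (by intro v hv; simp at hv ⊢; tauto)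
      · exact sup_aux 1 rfl (by intro v hv; simp at hv ⊢; tauto)
      · exact sup_aux 5 rfl (by intro v hv; simp at hv ⊢; tauto)
    · rw [F2_eq]
      simp only [map_add, mp_sg, List.map_cons, List.map_nil, XY_P0, XY_P1, XY_Q0, XY_Q1]
      refine Sup.add (Sup.add ?_ ?_) (Sup.add ?_ ?_)
      · exact sup_aux 5 rfl (by intro v hv; simp at hv ⊢; tauto)
      · exact sup_aux 4 rfl (by intro v hv; simp at hv ⊢; tauto)
      · exact sup_aux 5 rfl (by intro v hv; simp at hv ⊢; tauto)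
      · exact sup_aux 4 rfl (by intro v hv; simp at hv ⊢; tauto)
  exact Sup.cone key fun l hl => hl.cons

/-- the final form: vectors in the convex hull of a simplex have norm at least `1/2` -/
theorem SP.norm_ge {n : ℕ} (hn : n ≤ 4) {l : List ℍ[ℝ]} (h : SP n l) {v : ℍ[ℝ]}
    (hv : v ∈ convexHull ℝ {x | x ∈ l}) : 1 / 2 ≤ ‖v‖ :=
  h.acute.norm_ge (h.1.trans_le hn) hv

theorem XY_four (v : ℍ[ℝ]) : Xm (Xm (Xm (Xm v))) = Ym (Ym v) := by
  rw [Xm_four, Ym_Ym]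

theorem bdEx : bd (Ex (fun v => Xm v) (1 : ℍ[ℝ])) = sg [1] + mp (fun v => Xm v) (sg [1]) :=
  bd_Ex _ _

theorem bdEy : bd (Ey (fun v => Ym v) (1 : ℍ[ℝ])) = sg [1] + mp (fun v => Ym v) (sg [1]) :=
  bd_Ey _ _

theorem bdF1 : bd (F1 (fun v => Xm v) (fun v => Ym v) (1 : ℍ[ℝ]))
    = z1 (fun v => Xm v) (fun v => Ym v) (1 : ℍ[ℝ]) := bd_F1 _ XY_four

theorem bdF2 : bd (F2 (fun v => Xm v) (fun v => Ym v) (1 : ℍ[ℝ]))
    = z2 (fun v => Xm v) (fun v => Ym v) (1 : ℍ[ℝ]) := bd_F2 _ Xm_Ym_Xm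

theorem bdG : bd (G (fun v => Xm v) (fun v => Ym v) (1 : ℍ[ℝ]))
    = c2 (fun v => Xm v) (fun v => Ym v) (1 : ℍ[ℝ]) := bd_G _ XY_four Xm_Ym_Xm

end Coarse

end Crest.Agent.R050
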