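import Crest.Agent.R050.Defs

/-!
# Symmetrisation of frame chains over the cyclic group `A₃`
-/

namespace Crest.Agent.R050

section
variable {C : Type*}

theorem rot_rot_rot (v : Fr C) : rot (rot (rot v)) = v := rfl

/-- the third transposition -/
def s13 (v : Fr C) : Fr C := (v.2.2, v.2.1, v.1)

theorem rot_comp_s12 : (rot ∘ s12 : Fr C → Fr C) = s23 := rfl
theorem rot_comp_s23 : (rot ∘ s23 : Fr C → Fr C) = s13 := rfl
theorem s12_comp_rot : (s12 ∘ rot : Fr C → Fr C) = s13 := rfl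
theorem s12_comp_rotrot : (s12 ∘ (rot ∘ rot) : Fr C → Fr C) = s23 := rfl
theorem s23_comp_rot : (s23 ∘ rot : Fr C → Fr C) = s12 := rfl
theorem s23_comp_rotrot : (s23 ∘ (rot ∘ rot) : Fr C → Fr C) = s13 := rfl

/-- symmetrisation over `A₃` -/
noncomputable def A3 (c : Ch (Fr C)) : Ch (Fr C) := c + mp rot c + mp (rot ∘ rot) c

theorem A3_add (c d : Ch (Fr C)) : A3 (c + d) = A3 c + A3 d := by
  simp only [A3, map_add]; abel

theorem bd_A3 (c : Ch (Fr C)) : bd (A3 c) = A3 (bd c) := by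
  simp only [A3, map_add, mp_bd]

theorem A3_s12 (c : Ch (Fr C)) : A3 (mp s12 c) = mp s12 c + mp s23 c + mp s13 c := by
  simp only [A3, mp_mp]; rfl

theorem s12_A3 (c : Ch (Fr C)) : mp s12 (A3 c) = mp s12 c + mp s13 c + mp s23 c := by
  simp only [A3, map_add, mp_mp]; rfl

theorem s23_A3 (c : Ch (Fr C)) : mp s23 (A3 c) = mp s23 c + mp s12 c + mp s13 c := by
  simp only [A3, map_add, mp_mp]; rfl

theorem A3_s12_eq (c : Ch (Fr C)) : A3 (mp s12 c) = mp s12 (A3 c) := by
  rw [A3_s12, s12_A3]; abel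

theorem s23_A3_eq (c : Ch (Fr C)) : mp s23 (A3 c) = mp s12 (A3 c) := by
  rw [s23_A3, s12_A3]; abel

theorem bd_A3_nil (c : Ch (Fr C)) (h : bd c = sg []) : bd (A3 c) = sg [] := by
  rw [bd_A3, h]
  simp only [A3, mp_sg, List.map_nil]
  rw [two_self, zero_add]

theorem bd_A3_of (c d : Ch (Fr C)) (h : bd d = c + mp s12 c) :
    bd (A3 d) = A3 c + mp s12 (A3 c) := by
  rw [bd_A3, h, A3_add, A3_s12_eq]

theorem bd_A3_of' (c d : Ch (Fr C)) (h : bd d = c + mp s12 c) :
    bd (A3 d) = A3 c + mp s23 (A3 c) := by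
  rw [bd_A3_of c d h, s23_A3_eq]

theorem Sup_A3 {P : List (Fr C) → Prop} (hP : ∀ l, P l → P (l.map rot)) {c : Ch (Fr C)}
    (hc : Sup P c) : Sup P (A3 c) := by
  refine Sup.add (Sup.add hc (Sup.mp hc hP)) (Sup.mp hc ?_)
  intro l hl
  have := hP _ (hP _ hl)
  rwa [List.map_map] at this

end

section
variable {C : Type*} [DecidableEq C]

theorem cs1_rot (l : List (Fr C)) : cs1 (l.map rot) = cs2 l := by
  simp [cs1, cs2, rot, Function.comp_def]

theorem cs2_rot (l : List (Fr C)) : cs2 (l.map rot) = cs3 l := by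
  simp [cs2, cs3, rot, Function.comp_def]

theorem cs3_rot (l : List (Fr C)) : cs3 (l.map rot) = cs1 l := by
  simp [cs1, cs3, rot, Function.comp_def]

theorem Dj.rot {l : List (Fr C)} (h : Dj l) : Dj (l.map rot) := by
  constructor
  · rw [cs1_rot, cs2_rot]; exact h.d23
  · rw [cs1_rot, cs3_rot]; exact h.d12.symm
  · rw [cs2_rot, cs3_rot]; exact h.d13.symm

theorem InN.rot {N : Finset C → Prop} {l : List (Fr C)} (h : InN N l) : InN N (l.map rot) := by
  constructor
  · rw [cs1_rot]; exact h.n2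
  · rw [cs2_rot]; exact h.n3
  · rw [cs3_rot]; exact h.n1

theorem Sm.rot {l : List (Fr C)} (h : Sm l) : Sm (l.map rot) := by
  constructor
  · rw [cs1_rot]; exact h.c2
  · rw [cs2_rot]; exact h.c3
  · rw [cs3_rot]; exact h.c1

end

end Crest.Agent.R050
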