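import Crest.Agent.R050.Chain

/-!
# Shared definitions for rid 50 (S0069)
-/

namespace Crest.Agent.R050

open scoped Quaternion

/-- A (homogeneous) colouring of the nonzero quaternions with 10 colours such that equally
coloured unit quaternions are never nearly orthogonal. -/
structure GoodCol (κ : ℍ[ℝ] → Fin 10) (δ : ℝ) : Prop where
  pos : 0 < δ
  scal : ∀ (t : ℝ) (v : ℍ[ℝ]), t ≠ 0 → κ (t • v) = κ v
  sep : ∀ u w : ℍ[ℝ], ‖u‖ = 1 → ‖w‖ = 1 → κ u = κ w → δ ≤ |inner ℝ u w|

/-- the nerve at scale `η` -/
def Nv (κ : ℍ[ℝ] → Fin 10) (η : ℝ) (s : Finset (Fin 10)) : Prop :=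
  ∃ w : Fin 10 → ℍ[ℝ], (∀ i ∈ s, ‖w i‖ = 1 ∧ κ (w i) = i) ∧
    ∀ i ∈ s, ∀ j ∈ s, ‖w i - w j‖ ≤ η

/-- triples of colours (colours of an orthogonal frame) -/
abbrev Fr (C : Type*) := C × C × C

section
variable {C : Type*}

/-- swap the first two coordinates -/
def s12 (v : Fr C) : Fr C := (v.2.1, v.1, v.2.2)
/-- swap the last two coordinates -/
def s23 (v : Fr C) : Fr C := (v.1, v.2.2, v.2.1)
/-- cyclic rotation -/
def rot (v : Fr C) : Fr C := (v.2.1, v.2.2, v.1)

variable [DecidableEq C]

/-- set of first colours of a list of frames -/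
def cs1 (l : List (Fr C)) : Finset C := (l.map (fun v => v.1)).toFinset
/-- set of second colours of a list of frames -/
def cs2 (l : List (Fr C)) : Finset C := (l.map (fun v => v.2.1)).toFinset
/-- set of third colours of a list of frames -/
def cs3 (l : List (Fr C)) : Finset C := (l.map (fun v => v.2.2)).toFinset

/-- indicator cochain: number of simplices whose first colours are exactly `K` -/
def chi (K : Finset C) (l : List (Fr C)) : ZMod 2 :=
  if l.length = K.card ∧ cs1 l = K then 1 else 0

/-- the three colour sets of the list of frames are pairwise disjoint -/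
structure Dj (l : List (Fr C)) : Prop where
  d12 : Disjoint (cs1 l) (cs2 l)
  d13 : Disjoint (cs1 l) (cs3 l)
  d23 : Disjoint (cs2 l) (cs3 l)

/-- the three colour sets have at most three elements -/
structure Sm (l : List (Fr C)) : Prop where
  c1 : (cs1 l).card ≤ 3
  c2 : (cs2 l).card ≤ 3
  c3 : (cs3 l).card ≤ 3

/-- The three colour sets satisfy `N`. -/
structure InN (N : Finset C → Prop) (l : List (Fr C)) : Prop where
  n1 : N (cs1 l)
  n2 : N (cs2 l)
  n3 : N (cs3 l)

end

/-- a signed label: absolute value and sign (`true` is `+`) -/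
abbrev Lab := ℕ × Bool

/-- negation of labels -/
def lneg (a : Lab) : Lab := (a.1, !a.2)

/-- Fan's alternating cochain: the absolute values are distinct, and sorted by absolute value
the signs are `+ - + - ...` -/
def alt (l : List Lab) : ZMod 2 :=
  if (l.map Prod.fst).Nodup ∧
      ∀ a ∈ l, a.2 = decide ((l.filter (fun b => decide (b.1 < a.1))).length % 2 = 0)
  then 1 else 0

end Crest.Agent.R050
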