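import Crest.Agent.R050.Defs

/-!
# Geometric facts on the nerve `Nv` (rid 50, S0069)
-/

namespace Crest.Agent.R050

open scoped Quaternion

variable {κ : ℍ[ℝ] → Fin 10} {δ η : ℝ}

theorem Nv_down {s t : Finset (Fin 10)} (hs : Nv κ η s) (hts : t ⊆ s) : Nv κ η t := by
  obtain ⟨w, h1, h2⟩ := hs
  exact ⟨w, fun i hi => h1 i (hts hi), fun i hi j hj => h2 i (hts hi) j (hts hj)⟩

/-- in the four dimensional space of quaternions there is a unit vector orthogonal to three
given ones -/
theorem exists_unit_orth (x y z : ℍ[ℝ]) :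
    ∃ u : ℍ[ℝ], ‖u‖ = 1 ∧ inner ℝ x u = 0 ∧ inner ℝ y u = 0 ∧ inner ℝ z u = 0 := by
  classical
  set K : Submodule ℝ ℍ[ℝ] := Submodule.span ℝ (({x, y, z} : Finset ℍ[ℝ]) : Set ℍ[ℝ]) with hK
  have h1 : Module.finrank ℝ K ≤ 3 := by
    refine (finrank_span_finset_le_card (R := ℝ) ({x, y, z} : Finset ℍ[ℝ])).trans ?_
    exact Finset.card_le_three
  have h4 : Module.finrank ℝ ℍ[ℝ] = 4 := Quaternion.finrank_eq_four
  have h2 : Module.finrank ℝ K + Module.finrank ℝ Kᗮ = Module.finrank ℝ ℍ[ℝ] :=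
    Submodule.finrank_add_finrank_orthogonal K
  have h3 : 0 < Module.finrank ℝ Kᗮ := by omega
  have : Nontrivial Kᗮ := Module.finrank_pos_iff.1 h3
  obtain ⟨⟨v, hv⟩, hv0⟩ := exists_ne (0 : Kᗮ)
  have hv0' : v ≠ 0 := by
    intro h; apply hv0; ext1; exact h
  have hn : ‖v‖ ≠ 0 := norm_ne_zero_iff.2 hv0'
  have key : ∀ a ∈ ({x, y, z} : Finset ℍ[ℝ]), inner ℝ a (‖v‖⁻¹ • v) = 0 := by
    intro a ha
    have : inner ℝ a v = 0 := by
      rw [Submodule.mem_orthogonal] at hv
      exact hv a (Submodule.subset_span (by exact_mod_cast ha))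
    rw [inner_smul_right, this, mul_zero]
  refine ⟨‖v‖⁻¹ • v, ?_, key x (by simp), key y (by simp), key z (by simp)⟩
  rw [norm_smul, norm_inv, norm_norm, inv_mul_cancel₀ hn]

/-- a unit vector orthogonal to a member of a small cluster avoids the colours of the cluster -/
theorem color_notMem {s : Finset (Fin 10)} (h : GoodCol κ δ) (hη : η < δ)
    {w : Fin 10 → ℍ[ℝ]} (h1 : ∀ i ∈ s, ‖w i‖ = 1 ∧ κ (w i) = i)
    (h2 : ∀ i ∈ s, ∀ j ∈ s, ‖w i - w j‖ ≤ η) {i0 : Fin 10} (hi0 : i0 ∈ s)
    {u : ℍ[ℝ]} (hu : ‖u‖ = 1) (ho : inner ℝ (w i0) u = 0) : κ u ∉ s := by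
  intro hmem
  have hs := h.sep (w (κ u)) u (h1 _ hmem).1 hu (h1 _ hmem).2
  have : inner ℝ (w (κ u)) u = inner ℝ (w (κ u) - w i0) u := by
    rw [inner_sub_left, ho, sub_zero]
  rw [this] at hs
  have h3 := abs_real_inner_le_norm (w (κ u) - w i0) u
  rw [hu, mul_one] at h3
  have h4 := h2 _ hmem _ hi0
  linarith

/-- normalised form: for every set with a witness there is a point `x` such that all unit vectors
orthogonal to `x` avoid the set -/
theorem Nv_point {s : Finset (Fin 10)} (h : GoodCol κ δ) (hη : η < δ) (hs : Nv κ η s) :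
    ∃ x : ℍ[ℝ], ∀ u : ℍ[ℝ], ‖u‖ = 1 → inner ℝ x u = 0 → κ u ∉ s := by
  obtain ⟨w, h1, h2⟩ := hs
  rcases s.eq_empty_or_nonempty with rfl | ⟨i0, hi0⟩
  · exact ⟨0, fun u _ _ => by simp⟩
  · exact ⟨w i0, fun u hu ho => color_notMem h hη h1 h2 hi0 hu ho⟩

theorem Nv_three {a b c : Finset (Fin 10)} (h : GoodCol κ δ) (hη : η < δ)
    (ha : Nv κ η a) (hb : Nv κ η b) (hc : Nv κ η c) : a ∪ b ∪ c ≠ Finset.univ := by
  intro hu
  obtain ⟨x, hx⟩ := Nv_point h hη ha
  obtain ⟨y, hy⟩ := Nv_point h hη hb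
  obtain ⟨z, hz⟩ := Nv_point h hη hc
  obtain ⟨u, hu1, hux, huy, huz⟩ := exists_unit_orth x y z
  have : κ u ∈ a ∪ b ∪ c := by rw [hu]; exact Finset.mem_univ _
  rcases Finset.mem_union.1 this with h' | h'
  · rcases Finset.mem_union.1 h' with h'' | h''
    · exact hx u hu1 hux h''
    · exact hy u hu1 huy h''
  · exact hz u hu1 huz h'

/-- functions on the real line which do not change along small steps are constant -/
theorem real_const {α : Type*} {g : ℝ → α} {ε : ℝ} (hε : 0 < ε)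
    (h : ∀ a b : ℝ, |a - b| ≤ ε → g a = g b) (a b : ℝ) : g a = g b := by
  have hl : IsLocallyConstant g := by
    rw [IsLocallyConstant.iff_eventually_eq]
    intro x
    filter_upwards [Metric.ball_mem_nhds x hε] with y hy
    apply h
    have := Metric.mem_ball.1 hy
    rw [Real.dist_eq] at this
    exact this.le
  exact hl.apply_eq_of_preconnectedSpace a b

/-- the point with angle `t` on the circle through the orthonormal pair `u, u'` -/
noncomputable def circ (u u' : ℍ[ℝ]) (t : ℝ) : ℍ[ℝ] := Real.cos t • u + Real.sin t • u'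

theorem circ_zero (u u' : ℍ[ℝ]) : circ u u' 0 = u := by simp [circ]

theorem circ_half (u u' : ℍ[ℝ]) : circ u u' (Real.pi / 2) = u' := by simp [circ]

theorem circ_norm {u u' : ℍ[ℝ]} (hu : ‖u‖ = 1) (hu' : ‖u'‖ = 1) (ho : inner ℝ u u' = 0) (t : ℝ) :
    ‖circ u u' t‖ = 1 := by
  have h : ‖circ u u' t‖ ^ 2 = 1 := by
    rw [circ, norm_add_sq_real, norm_smul, norm_smul, hu, hu', inner_smul_left, inner_smul_right,
      ho]
    simp only [Real.norm_eq_abs, mul_one, sq_abs, mul_zero, add_zero]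
    exact Real.cos_sq_add_sin_sq t
  have h0 : (0 : ℝ) ≤ ‖circ u u' t‖ := norm_nonneg _
  nlinarith

theorem circ_orth {x u u' : ℍ[ℝ]} (h : inner ℝ x u = 0) (h' : inner ℝ x u' = 0) (t : ℝ) :
    inner ℝ x (circ u u' t) = 0 := by
  rw [circ, inner_add_right, inner_smul_right, inner_smul_right, h, h']
  simp

theorem circ_lip {u u' : ℍ[ℝ]} (hu : ‖u‖ = 1) (hu' : ‖u'‖ = 1) (a b : ℝ) :
    ‖circ u u' a - circ u u' b‖ ≤ 2 * |a - b| := by
  have e : circ u u' a - circ u u' b
      = (Real.cos a - Real.cos b) • u + (Real.sin a - Real.sin b) • u' := by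
    simp only [circ, sub_smul]; abel
  rw [e]
  refine (norm_add_le _ _).trans ?_
  rw [norm_smul, norm_smul, hu, hu', mul_one, mul_one, Real.norm_eq_abs, Real.norm_eq_abs]
  have h1 : |Real.cos a - Real.cos b| ≤ |a - b| := by
    have := Real.lipschitzWith_cos.dist_le_mul a b
    simpa [Real.dist_eq] using this
  have h2 : |Real.sin a - Real.sin b| ≤ |a - b| := by
    have := Real.lipschitzWith_sin.dist_le_mul a b
    simpa [Real.dist_eq] using this
  linarith

theorem Nv_disj {s t : Finset (Fin 10)} (h : GoodCol κ δ) (hη0 : 0 < η) (hη : η < δ)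
    (hs : Nv κ η s) (ht : Nv κ η t) (cs : s.card = 4) (ct : t.card = 4) : ¬ Disjoint s t := by
  intro hd
  obtain ⟨x, hx⟩ := Nv_point h hη hs
  obtain ⟨y, hy⟩ := Nv_point h hη ht
  obtain ⟨u, hu1, hux, huy, -⟩ := exists_unit_orth x y 0
  obtain ⟨u', hu1', hux', huy', huu'⟩ := exists_unit_orth x y u
  -- values on the circle
  have hval : ∀ θ : ℝ, κ (circ u u' θ) ∈ (s ∪ t)ᶜ := by
    intro θ
    rw [Finset.mem_compl, Finset.mem_union, not_or]
    exact ⟨hx _ (circ_norm hu1 hu1' huu' θ) (circ_orth hux hux' θ),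
      hy _ (circ_norm hu1 hu1' huu' θ) (circ_orth huy huy' θ)⟩
  have hcard : (s ∪ t)ᶜ.card = 2 := by
    rw [Finset.card_compl, Finset.card_union_of_disjoint hd, cs, ct, Fintype.card_fin]
  have hne : κ u ≠ κ u' := by
    intro he
    have := h.sep u u' hu1 hu1' he
    rw [huu', abs_zero] at this
    exact absurd h.pos (not_lt.2 this)
  -- there is a small step where the colour changes
  obtain ⟨a, b, hab, hcol⟩ : ∃ a b : ℝ, |a - b| ≤ η / 2 ∧
      κ (circ u u' a) ≠ κ (circ u u' b) := by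
    by_contra hcon
    push Not at hcon
    have := real_const (g := fun θ => κ (circ u u' θ)) (half_pos hη0) hcon 0 (Real.pi / 2)
    simp only [circ_zero, circ_half] at this
    exact hne this
  set g := κ (circ u u' a) with hg
  set g' := κ (circ u u' b) with hg'
  have hgg : ({g, g'} : Finset (Fin 10)) = (s ∪ t)ᶜ := by
    apply Finset.eq_of_subset_of_card_le
    · intro i hi
      rcases Finset.mem_insert.1 hi with rfl | hi
      · exact hval a
      · rw [Finset.mem_singleton.1 hi]; exact hval b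
    · rw [hcard, Finset.card_pair hcol]
  have hN : Nv κ η {g, g'} := by
    have hd2 : ‖circ u u' a - circ u u' b‖ ≤ η :=
      (circ_lip hu1 hu1' a b).trans (by linarith)
    refine ⟨fun i => if i = g then circ u u' a else circ u u' b, ?_, ?_⟩
    · intro i hi
      by_cases hig : i = g
      · simp only [hig, if_true]
        exact ⟨circ_norm hu1 hu1' huu' a, hg.symm⟩
      · have : i = g' := by
          rcases Finset.mem_insert.1 hi with h' | h'
          · exact absurd h' hig
          · exact Finset.mem_singleton.1 h'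
        simp only [hig, if_false]
        exact ⟨circ_norm hu1 hu1' huu' b, by rw [this]⟩
    · intro i hi j hj
      by_cases hig : i = g <;> by_cases hjg : j = g
      · simp [hig, hjg, hη0.le]
      · simp only [hig, hjg, if_true, if_false]
        exact hd2
      · simp only [hig, hjg, if_true, if_false]
        rw [norm_sub_rev]; exact hd2
      · simp [hig, hjg, hη0.le]
  apply Nv_three h hη hs ht hN
  rw [hgg]
  exact Finset.union_compl _

/-- a function on the unit sphere of the quaternions which does not change along small steps is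
constant -/
theorem sphere_const {α : Type*} {f : ℍ[ℝ] → α} {ε : ℝ} (hε : 0 < ε)
    (h : ∀ x x' : ℍ[ℝ], ‖x‖ = 1 → ‖x'‖ = 1 → ‖x - x'‖ ≤ ε → f x = f x')
    (x y : ℍ[ℝ]) (hx : ‖x‖ = 1) (hy : ‖y‖ = 1) : f x = f y := by
  -- find `u` orthogonal to `x` with `y` on the circle
  obtain ⟨u, hu, ho, θ, hθ⟩ : ∃ u : ℍ[ℝ], ‖u‖ = 1 ∧ inner ℝ x u = 0 ∧ ∃ θ : ℝ,
      circ x u θ = y := by
    set c : ℝ := inner ℝ x y with hc
    have hc1 : |c| ≤ 1 := by
      have := abs_real_inner_le_norm x y
      rw [hx, hy, mul_one] at this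
      exact this
    obtain ⟨hc2, hc3⟩ := abs_le.1 hc1
    set v : ℍ[ℝ] := y - c • x with hv
    have hxv : inner ℝ x v = 0 := by
      rw [hv, inner_sub_right, inner_smul_right, real_inner_self_eq_norm_sq, hx]
      simp [hc]
    have hvn : ‖v‖ ^ 2 = 1 - c ^ 2 := by
      rw [hv, norm_sub_sq_real, norm_smul, inner_smul_right, real_inner_comm, ← hc, hx, hy]
      simp only [Real.norm_eq_abs, mul_one, sq_abs]
      ring
    by_cases hv0 : v = 0
    · obtain ⟨u, hu, hux, -, -⟩ := exists_unit_orth x 0 0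
      refine ⟨u, hu, hux, Real.arccos c, ?_⟩
      have hcc : 1 - c ^ 2 = 0 := by rw [← hvn, hv0]; simp
      rw [circ, Real.cos_arccos hc2 hc3, Real.sin_arccos, hcc, Real.sqrt_zero, zero_smul, add_zero]
      exact (sub_eq_zero.1 hv0).symm
    · have hn : ‖v‖ ≠ 0 := norm_ne_zero_iff.2 hv0
      refine ⟨‖v‖⁻¹ • v, ?_, ?_, Real.arccos c, ?_⟩
      · rw [norm_smul, norm_inv, norm_norm, inv_mul_cancel₀ hn]
      · rw [inner_smul_right, hxv, mul_zero]
      · rw [circ, Real.cos_arccos hc2 hc3, Real.sin_arccos, ← hvn, Real.sqrt_sq (norm_nonneg _),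
          smul_smul, mul_inv_cancel₀ hn, one_smul, hv]
        abel
  have := real_const (g := fun θ => f (circ x u θ)) (half_pos hε) (fun a b hab =>
    h _ _ (circ_norm hx hu ho a) (circ_norm hx hu ho b)
      ((circ_lip hx hu a b).trans (by linarith))) 0 θ
  simp only [circ_zero, hθ] at this
  exact this

end Crest.Agent.R050
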