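import Crest.Agent.R050.Defs

/-!
# The parity lemma for rid 50 (S0069)
-/

namespace Crest.Agent.R050

section par
variable {C : Type*} [DecidableEq C]

theorem cs1_map_s23 (l : List (Fr C)) : cs1 (l.map s23) = cs1 l := by
  simp only [cs1, List.map_map]
  rfl

theorem chi_map_s23 (K : Finset C) (l : List (Fr C)) : chi K (l.map s23) = chi K l := by
  simp only [chi, cs1_map_s23, List.length_map]

theorem ev_chi_s23 (K : Finset C) (c : Ch (Fr C)) : ev (chi K) (c + mp s23 c) = 0 := by
  rw [map_add, ev_mp]
  simp only [chi_map_s23]
  exact two_self _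

theorem cs1_three (a b c : Fr C) : cs1 [a, b, c] = {a.1, b.1, c.1} := by
  simp [cs1]

theorem cs1_two (a b : Fr C) : cs1 [a, b] = {a.1, b.1} := by
  simp [cs1]

theorem cs1_four (a b c d : Fr C) : cs1 [a, b, c, d] = {a.1, b.1, c.1, d.1} := by
  simp [cs1]

theorem chi_two {e : Finset C} (he : e.card = 2) (a b : Fr C) :
    chi e [a, b] = if ({a.1, b.1} : Finset C) = e then 1 else 0 := by
  simp [chi, cs1_two, he]

theorem chi_three {K : Finset C} (hK : K.card = 3) (a b c : Fr C) :
    chi K [a, b, c] = if ({a.1, b.1, c.1} : Finset C) = K then 1 else 0 := by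
  simp [chi, cs1_three, hK]

omit [DecidableEq C] in
theorem cob_three (ψ : List (Fr C) → ZMod 2) (a b c : Fr C) :
    cob ψ [a, b, c] = ψ [b, c] + ψ [a, c] + ψ [a, b] := by
  simp [cob, bd_cons, add_assoc]

omit [DecidableEq C] in
theorem cob_four (ψ : List (Fr C) → ZMod 2) (a b c d : Fr C) :
    cob ψ [a, b, c, d] = ψ [b, c, d] + ψ [a, c, d] + ψ [a, b, d] + ψ [a, b, c] := by
  simp [cob, bd_cons, add_assoc]

theorem card_three_iff (x y z : C) :
    ({x, y, z} : Finset C).card = 3 ↔ x ≠ y ∧ x ≠ z ∧ y ≠ z := by
  constructor
  · intro h
    refine ⟨?_, ?_, ?_⟩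
    · rintro rfl
      have : ({x, x, z} : Finset C).card ≤ 2 := by
        simpa using Finset.card_le_two (a := x) (b := z)
      omega
    · rintro rfl
      have h3 : ({x, y, x} : Finset C) = {x, y} := by ext t; simp; tauto
      have : ({x, y, x} : Finset C).card ≤ 2 := by
        rw [h3]; exact Finset.card_le_two
      omega
    · rintro rfl
      have : ({x, y, y} : Finset C).card ≤ 2 := by
        simpa using Finset.card_le_two (a := x) (b := y)
      omega
  · rintro ⟨h1, h2, h3⟩
    exact Finset.card_eq_three.2 ⟨x, y, z, h1, h2, h3, rfl⟩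

theorem card_two_iff (x y : C) : ({x, y} : Finset C).card = 2 ↔ x ≠ y := by
  constructor
  · intro h
    rintro rfl
    simp at h
  · intro h
    exact Finset.card_pair h

omit [DecidableEq C] in
theorem eq_iff_of_subset {s t : Finset C} (h : s ⊆ t) : s = t ↔ s.card = t.card := by
  constructor
  · rintro rfl; rfl
  · intro h2
    exact Finset.eq_of_subset_of_card_le h h2.ge

theorem sum_ins_out {e s : Finset C} (he : e.card = 2) (x y z : C) (hx : x ∉ e) (hxs : x ∈ s) :
    (∑ g ∈ s, if ({x, y, z} : Finset C) = insert g e then (1 : ZMod 2) else 0)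
      = if ({y, z} : Finset C) = e then 1 else 0 := by
  rw [Finset.sum_eq_single x]
  · by_cases h : ({y, z} : Finset C) = e
    · rw [if_pos h, if_pos (by rw [← h])]
    · rw [if_neg h, if_neg]
      intro h2
      apply h
      have h3 : x ∉ ({y, z} : Finset C) := by
        intro h4
        have h5 : ({x, y, z} : Finset C) = {y, z} := Finset.insert_eq_of_mem h4
        have h6 := congrArg Finset.card h2
        rw [h5, Finset.card_insert_of_notMem hx, he] at h6
        have := Finset.card_le_two (a := y) (b := z)
        omega
      have h4 : ({x, y, z} : Finset C).erase x = (insert x e).erase x := by rw [h2]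
      rw [Finset.erase_insert hx] at h4
      rw [← h4]
      rw [show ({x, y, z} : Finset C) = insert x {y, z} from rfl, Finset.erase_insert h3]
  · intro g hg hgx
    rw [if_neg]
    intro h
    have : x ∈ insert g e := by rw [← h]; simp
    rcases Finset.mem_insert.1 this with h1 | h1
    · exact hgx h1.symm
    · exact hx h1
  · intro h
    exact absurd hxs h

theorem par_aux {e U : Finset C} (he : e.card = 2) (x y z : C) (hxU : x ∈ U) (hyU : y ∈ U)
    (hzU : z ∈ U) :
    (if ({y, z} : Finset C) = e then (1 : ZMod 2) else 0)
      + (if ({x, z} : Finset C) = e then 1 else 0) + (if ({x, y} : Finset C) = e then 1 else 0)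
      = ∑ g ∈ U \ e, if ({x, y, z} : Finset C) = insert g e then (1 : ZMod 2) else 0 := by
  by_cases hx : x ∈ e
  · by_cases hy : y ∈ e
    · by_cases hz : z ∈ e
      · rw [Finset.sum_eq_zero]
        · have h1 : ({y, z} : Finset C) = e ↔ y ≠ z := by
            rw [eq_iff_of_subset (by
              intro t ht
              rcases Finset.mem_insert.1 ht with rfl | ht
              · exact hy
              · rw [Finset.mem_singleton.1 ht]; exact hz), he, card_two_iff]
          have h2 : ({x, z} : Finset C) = e ↔ x ≠ z := by
            rw [eq_iff_of_subset (by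
              intro t ht
              rcases Finset.mem_insert.1 ht with rfl | ht
              · exact hx
              · rw [Finset.mem_singleton.1 ht]; exact hz), he, card_two_iff]
          have h3 : ({x, y} : Finset C) = e ↔ x ≠ y := by
            rw [eq_iff_of_subset (by
              intro t ht
              rcases Finset.mem_insert.1 ht with rfl | ht
              · exact hx
              · rw [Finset.mem_singleton.1 ht]; exact hy), he, card_two_iff]
          have h4 : ¬ (x ≠ y ∧ x ≠ z ∧ y ≠ z) := by
            rw [← card_three_iff]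
            intro h
            have : ({x, y, z} : Finset C) ⊆ e := by
              intro t ht
              simp only [Finset.mem_insert, Finset.mem_singleton] at ht
              rcases ht with rfl | rfl | rfl
              · exact hx
              · exact hy
              · exact hz
            have := Finset.card_le_card this
            omega
          simp only [h1, h2, h3]
          by_cases e1 : x = y
          · subst e1
            by_cases e2 : x = z
            · subst e2; simp
            · simp [e2]; exact two_self (M := ZMod 2) 1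
          · by_cases e2 : x = z
            · subst e2
              have : y ≠ x := fun h => e1 h.symm
              simp [e1, this]; exact two_self (M := ZMod 2) 1
            · have e3 : y = z := by
                by_contra h
                exact h4 ⟨e1, e2, h⟩
              subst e3
              simp [e1]; exact two_self (M := ZMod 2) 1
        · intro g hg
          rw [if_neg]
          intro h
          have : g ∈ ({x, y, z} : Finset C) := by rw [h]; simp
          simp only [Finset.mem_insert, Finset.mem_singleton] at this
          have hg' := (Finset.mem_sdiff.1 hg).2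
          rcases this with rfl | rfl | rfl
          · exact hg' hx
          · exact hg' hy
          · exact hg' hz
      · have h0 : ({x, y, z} : Finset C) = {z, x, y} := by ext t; simp; tauto
        rw [h0, sum_ins_out he z x y hz (Finset.mem_sdiff.2 ⟨hzU, hz⟩)]
        have h1 : ({y, z} : Finset C) ≠ e := by rintro rfl; simp at hz
        have h2 : ({x, z} : Finset C) ≠ e := by rintro rfl; simp at hz
        simp [h1, h2]
    · have h0 : ({x, y, z} : Finset C) = {y, x, z} := by ext t; simp; tauto
      rw [h0, sum_ins_out he y x z hy (Finset.mem_sdiff.2 ⟨hyU, hy⟩)]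
      have h1 : ({y, z} : Finset C) ≠ e := by rintro rfl; simp at hy
      have h2 : ({x, y} : Finset C) ≠ e := by rintro rfl; simp at hy
      simp [h1, h2]
  · rw [sum_ins_out he x y z hx (Finset.mem_sdiff.2 ⟨hxU, hx⟩)]
    have h1 : ({x, z} : Finset C) ≠ e := by rintro rfl; simp at hx
    have h2 : ({x, y} : Finset C) ≠ e := by rintro rfl; simp at hx
    simp [h1, h2]

theorem cob_chi_par {e U : Finset C} (he : e.card = 2) (a b c : Fr C) (ha : a.1 ∈ U)
    (hb : b.1 ∈ U) (hc : c.1 ∈ U) :
    ∑ g ∈ U \ e, chi (insert g e) [a, b, c] = cob (chi e) [a, b, c] := by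
  rw [cob_three, chi_two he, chi_two he, chi_two he, par_aux he _ _ _ ha hb hc]
  refine Finset.sum_congr rfl ?_
  intro g hg
  rw [chi_three]
  rw [Finset.card_insert_of_notMem (Finset.mem_sdiff.1 hg).2, he]

/-- the parity identity -/
theorem par_lemma {C : Type*} [DecidableEq C] (D1 D2 : Ch (Fr C)) (h2 : bd D2 = D1 + mp s23 D1)
    (U : Finset C) (a2 : Sup (fun l => l.length = 3 ∧ cs1 l ⊆ U) D2) (e : Finset C)
    (he : e.card = 2) (heU : e ⊆ U) : ∑ g ∈ U \ e, ev (chi (insert g e)) D2 = 0 := by
  have h1 : ev (chi e) (bd D2) = 0 := by rw [h2, ev_chi_s23]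
  rw [ev_bd] at h1
  rw [← h1]
  have h3 : ∀ s : Finset C, ∑ g ∈ s, ev (chi (insert g e)) D2
      = ev (fun l => ∑ g ∈ s, chi (insert g e) l) D2 := by
    intro s
    have : (∑ g ∈ s, (ev (chi (insert g e)) : Ch (Fr C) →ₗ[ZMod 2] ZMod 2))
        = ev (fun l => ∑ g ∈ s, chi (insert g e) l) := by
      apply lin_ext
      intro l
      simp [LinearMap.sum_apply]
    rw [← this, LinearMap.sum_apply]
  rw [h3]
  refine ev_congr a2 ?_
  rintro l ⟨hl, hlU⟩
  obtain ⟨a, b, c, rfl⟩ : ∃ a b c, l = [a, b, c] := List.length_eq_three.1 hl
  rw [cs1_three] at hlU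
  exact cob_chi_par he a b c (hlU (by simp)) (hlU (by simp)) (hlU (by simp))

end par

end Crest.Agent.R050
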