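import Crest.Agent.R050.Defs

/-!
# Quaternion frames (task 569, rid 50)
-/

namespace Crest.Agent.R050

open scoped Quaternion

/-- the quaternion `i` -/
def qi : ℍ[ℝ] := ⟨0, 1, 0, 0⟩
/-- the quaternion `j` -/
def qj : ℍ[ℝ] := ⟨0, 0, 1, 0⟩
/-- the quaternion `k` -/
def qk : ℍ[ℝ] := ⟨0, 0, 0, 1⟩

/-- colours of the frame of `x` given by the quaternion `v` -/
noncomputable def fr (κ : ℍ[ℝ] → Fin 10) (x v : ℍ[ℝ]) : Fr (Fin 10) :=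
  (κ (x * (v * qi * v⁻¹)), κ (x * (v * qj * v⁻¹)), κ (x * (v * qk * v⁻¹)))

/-- `(1-k)/√2` -/
noncomputable def qX : ℍ[ℝ] := ⟨Real.sqrt 2 / 2, 0, 0, -(Real.sqrt 2 / 2)⟩
/-- `-i` -/
def qY : ℍ[ℝ] := ⟨0, -1, 0, 0⟩


section components
@[simp] theorem qi_re : qi.re = 0 := rfl
@[simp] theorem qi_imI : qi.imI = 1 := rfl
@[simp] theorem qi_imJ : qi.imJ = 0 := rfl
@[simp] theorem qi_imK : qi.imK = 0 := rfl
@[simp] theorem qj_re : qj.re = 0 := rfl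
@[simp] theorem qj_imI : qj.imI = 0 := rfl
@[simp] theorem qj_imJ : qj.imJ = 1 := rfl
@[simp] theorem qj_imK : qj.imK = 0 := rfl
@[simp] theorem qk_re : qk.re = 0 := rfl
@[simp] theorem qk_imI : qk.imI = 0 := rfl
@[simp] theorem qk_imJ : qk.imJ = 0 := rfl
@[simp] theorem qk_imK : qk.imK = 1 := rfl
@[simp] theorem qX_re : qX.re = Real.sqrt 2 / 2 := rfl
@[simp] theorem qX_imI : qX.imI = 0 := rfl
@[simp] theorem qX_imJ : qX.imJ = 0 := rfl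
@[simp] theorem qX_imK : qX.imK = -(Real.sqrt 2 / 2) := rfl
@[simp] theorem qY_re : qY.re = 0 := rfl
@[simp] theorem qY_imI : qY.imI = -1 := rfl
@[simp] theorem qY_imJ : qY.imJ = 0 := rfl
@[simp] theorem qY_imK : qY.imK = 0 := rfl
end components

/-- right multiplication by `(1-k)/√2` -/
noncomputable def Xm : ℍ[ℝ] →ₗ[ℝ] ℍ[ℝ] := LinearMap.mulRight ℝ qX
/-- right multiplication by `-i` -/
noncomputable def Ym : ℍ[ℝ] →ₗ[ℝ] ℍ[ℝ] := LinearMap.mulRight ℝ qY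

theorem Xm_apply (v : ℍ[ℝ]) : Xm v = v * qX := rfl
theorem Ym_apply (v : ℍ[ℝ]) : Ym v = v * qY := rfl

theorem Xm_apply' (v : ℍ[ℝ]) : Xm v = v * ⟨Real.sqrt 2 / 2, 0, 0, -Real.sqrt 2 / 2⟩ := by
  rw [Xm_apply, qX, neg_div]

theorem Ym_apply' (v : ℍ[ℝ]) : Ym v = v * ⟨0, -1, 0, 0⟩ := rfl

theorem sqrt_two_half_sq : (Real.sqrt 2 / 2) * (Real.sqrt 2 / 2) = 1 / 2 := by
  have := Real.mul_self_sqrt (show (0 : ℝ) ≤ 2 by norm_num)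
  nlinarith

theorem qX_sq : qX * qX = -qk := by
  have h := sqrt_two_half_sq
  ext <;> simp
  all_goals linarith

theorem qk_sq : qk * qk = -1 := by
  ext <;> simp

theorem qX_pow4 : qX * qX * qX * qX = -1 := by
  rw [mul_assoc (qX * qX), qX_sq, neg_mul_neg, qk_sq]

theorem qY_sq : qY * qY = -1 := by
  ext <;> simp

theorem qXYX : qX * qY * qX = qY := by
  have h := sqrt_two_half_sq
  ext <;> simp
  all_goals linarith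

/-- `X⁴ = -1` -/
theorem Xm_pow4 (v : ℍ[ℝ]) : Xm (Xm (Xm (Xm v))) = -v := by
  simp only [Xm_apply]
  calc v * qX * qX * qX * qX = v * (qX * qX * qX * qX) := by simp only [mul_assoc]
    _ = -v := by rw [qX_pow4, mul_neg, mul_one]

/-- `Y² = -1` -/
theorem Ym_sq (v : ℍ[ℝ]) : Ym (Ym v) = -v := by
  simp only [Ym_apply]
  rw [mul_assoc, qY_sq, mul_neg, mul_one]

/-- `X Y X = Y` -/
theorem Xm_Ym_Xm (v : ℍ[ℝ]) : Xm (Ym (Xm v)) = Ym v := by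
  simp only [Xm_apply, Ym_apply]
  calc v * qX * qY * qX = v * (qX * qY * qX) := by simp only [mul_assoc]
    _ = v * qY := by rw [qXYX]

theorem norm_eq_one_of_normSq {q : ℍ[ℝ]} (h : Quaternion.normSq q = 1) : ‖q‖ = 1 := by
  have h1 : ‖q‖ * ‖q‖ = 1 := by rw [← Quaternion.normSq_eq_norm_mul_self, h]
  have h2 : 0 ≤ ‖q‖ := norm_nonneg q
  nlinarith

theorem norm_qX : ‖qX‖ = 1 := by
  apply norm_eq_one_of_normSq
  have h := sqrt_two_half_sq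
  simp only [Quaternion.normSq_def', qX_re, qX_imI, qX_imJ, qX_imK]
  nlinarith

theorem norm_qY : ‖qY‖ = 1 := by
  apply norm_eq_one_of_normSq
  simp [Quaternion.normSq_def']

theorem norm_qi : ‖qi‖ = 1 := by
  apply norm_eq_one_of_normSq
  simp [Quaternion.normSq_def']

theorem norm_qj : ‖qj‖ = 1 := by
  apply norm_eq_one_of_normSq
  simp [Quaternion.normSq_def']

theorem norm_qk : ‖qk‖ = 1 := by
  apply norm_eq_one_of_normSq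
  simp [Quaternion.normSq_def']

theorem norm_Xm (v : ℍ[ℝ]) : ‖Xm v‖ = ‖v‖ := by
  rw [Xm_apply, norm_mul, norm_qX, mul_one]

theorem norm_Ym (v : ℍ[ℝ]) : ‖Ym v‖ = ‖v‖ := by
  rw [Ym_apply, norm_mul, norm_qY, mul_one]

/-- left multiplication scales inner products -/
theorem inner_mul_left' (x a b : ℍ[ℝ]) :
    inner ℝ (x * a) (x * b) = ‖x‖ ^ 2 * inner ℝ a b := by
  rw [real_inner_eq_norm_mul_self_add_norm_mul_self_sub_norm_sub_mul_self_div_two,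
    real_inner_eq_norm_mul_self_add_norm_mul_self_sub_norm_sub_mul_self_div_two a b,
    ← mul_sub, norm_mul, norm_mul, norm_mul]
  ring

/-- right multiplication scales inner products -/
theorem inner_mul_right' (x a b : ℍ[ℝ]) :
    inner ℝ (a * x) (b * x) = ‖x‖ ^ 2 * inner ℝ a b := by
  rw [real_inner_eq_norm_mul_self_add_norm_mul_self_sub_norm_sub_mul_self_div_two,
    real_inner_eq_norm_mul_self_add_norm_mul_self_sub_norm_sub_mul_self_div_two a b,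
    ← sub_mul, norm_mul, norm_mul, norm_mul]
  ring

theorem inner_Xm (v w : ℍ[ℝ]) : inner ℝ (Xm v) (Xm w) = inner ℝ v w := by
  rw [Xm_apply, Xm_apply, inner_mul_right', norm_qX, one_pow, one_mul]

theorem inner_Ym (v w : ℍ[ℝ]) : inner ℝ (Ym v) (Ym w) = inner ℝ v w := by
  rw [Ym_apply, Ym_apply, inner_mul_right', norm_qY, one_pow, one_mul]

/-! ### frames -/

/-- conjugation of `q` by `v`, moved to the orthogonal complement of `x` -/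
noncomputable def fv (x v q : ℍ[ℝ]) : ℍ[ℝ] := x * (v * q * v⁻¹)

theorem fr_eq (κ : ℍ[ℝ] → Fin 10) (x v : ℍ[ℝ]) :
    fr κ x v = (κ (fv x v qi), κ (fv x v qj), κ (fv x v qk)) := rfl

theorem fv_mul (x v p q : ℍ[ℝ]) : fv x (v * p) q = x * (v * (p * q * p⁻¹) * v⁻¹) := by
  simp only [fv, mul_inv_rev, mul_assoc]

theorem qX_ne : qX ≠ 0 := by
  intro h; have := norm_qX; rw [h, norm_zero] at this; exact zero_ne_one this

theorem qY_ne : qY ≠ 0 := by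
  intro h; have := norm_qY; rw [h, norm_zero] at this; exact zero_ne_one this

theorem conj_X_i : qX * qi * qX⁻¹ = -qj := by
  rw [mul_inv_eq_iff_eq_mul₀ qX_ne]
  ext <;> simp

theorem conj_X_j : qX * qj * qX⁻¹ = qi := by
  rw [mul_inv_eq_iff_eq_mul₀ qX_ne]
  ext <;> simp

theorem conj_X_k : qX * qk * qX⁻¹ = qk := by
  rw [mul_inv_eq_iff_eq_mul₀ qX_ne]
  ext <;> simp

theorem conj_Y_i : qY * qi * qY⁻¹ = qi := by
  rw [mul_inv_eq_iff_eq_mul₀ qY_ne]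
  ext <;> simp

theorem conj_Y_j : qY * qj * qY⁻¹ = -qj := by
  rw [mul_inv_eq_iff_eq_mul₀ qY_ne]
  ext <;> simp

theorem conj_Y_k : qY * qk * qY⁻¹ = -qk := by
  rw [mul_inv_eq_iff_eq_mul₀ qY_ne]
  ext <;> simp

theorem kappa_neg {κ : ℍ[ℝ] → Fin 10} (hκ : ∀ (t : ℝ) (v : ℍ[ℝ]), t ≠ 0 → κ (t • v) = κ v)
    (v : ℍ[ℝ]) : κ (-v) = κ v := by
  have := hκ (-1) v (by norm_num)
  rwa [neg_one_smul] at this

theorem fr_Xm {κ : ℍ[ℝ] → Fin 10} (hκ : ∀ (t : ℝ) (v : ℍ[ℝ]), t ≠ 0 → κ (t • v) = κ v)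
    (x v : ℍ[ℝ]) : fr κ x (Xm v) = s12 (fr κ x v) := by
  rw [fr_eq, Xm_apply, fv_mul, fv_mul, fv_mul, conj_X_i, conj_X_j, conj_X_k, fr_eq, s12]
  simp only [fv]
  rw [mul_neg, neg_mul, mul_neg, kappa_neg hκ]

theorem fr_Ym {κ : ℍ[ℝ] → Fin 10} (hκ : ∀ (t : ℝ) (v : ℍ[ℝ]), t ≠ 0 → κ (t • v) = κ v)
    (x v : ℍ[ℝ]) : fr κ x (Ym v) = fr κ x v := by
  rw [fr_eq, Ym_apply, fv_mul, fv_mul, fv_mul, conj_Y_i, conj_Y_j, conj_Y_k, fr_eq]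
  simp only [fv]
  rw [mul_neg, neg_mul, mul_neg, kappa_neg hκ, mul_neg, neg_mul, mul_neg, kappa_neg hκ]

theorem fr_neg (κ : ℍ[ℝ] → Fin 10) (x v : ℍ[ℝ]) : fr κ x (-v) = fr κ x v := by
  simp only [fr, neg_mul, inv_neg, mul_neg, neg_neg]

theorem fr_smul (κ : ℍ[ℝ] → Fin 10) (x v : ℍ[ℝ]) (t : ℝ) (ht : t ≠ 0) :
    fr κ x (t • v) = fr κ x v := by
  have key : ∀ q : ℍ[ℝ], (t • v) * q * (t • v)⁻¹ = v * q * v⁻¹ := by
    intro q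
    rw [smul_inv₀, smul_mul_assoc, smul_mul_smul_comm, mul_inv_cancel₀ ht, one_smul]
  simp only [fr, key]

theorem norm_fv {x v q : ℍ[ℝ]} (hx : ‖x‖ = 1) (hv : v ≠ 0) (hq : ‖q‖ = 1) :
    ‖fv x v q‖ = 1 := by
  have : ‖v‖ ≠ 0 := norm_ne_zero_iff.mpr hv
  rw [fv, norm_mul, norm_mul, norm_mul, norm_inv, hx, hq]
  field_simp

theorem inner_fv {x v q q' : ℍ[ℝ]} (hx : ‖x‖ = 1) (hv : v ≠ 0) :
    inner ℝ (fv x v q) (fv x v q') = inner ℝ q q' := by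
  have : ‖v‖ ≠ 0 := norm_ne_zero_iff.mpr hv
  rw [fv, fv, inner_mul_left', inner_mul_right', inner_mul_left', hx, norm_inv]
  field_simp

theorem fv_one {x v : ℍ[ℝ]} (hv : v ≠ 0) : fv x v 1 = x := by
  rw [fv, mul_one, mul_inv_cancel₀ hv, mul_one]

theorem inner_x_fv {x v q : ℍ[ℝ]} (hx : ‖x‖ = 1) (hv : v ≠ 0) :
    inner ℝ x (fv x v q) = inner ℝ 1 q := by
  have h := inner_fv (q := 1) (q' := q) hx hv
  rwa [fv_one hv] at h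

theorem inner_qi_qj : inner ℝ qi qj = 0 := by simp [Quaternion.inner_def]
theorem inner_qi_qk : inner ℝ qi qk = 0 := by simp [Quaternion.inner_def]
theorem inner_qj_qk : inner ℝ qj qk = 0 := by simp [Quaternion.inner_def]
theorem inner_one_qi : inner ℝ 1 qi = 0 := by simp [Quaternion.inner_def]
theorem inner_one_qj : inner ℝ 1 qj = 0 := by simp [Quaternion.inner_def]
theorem inner_one_qk : inner ℝ 1 qk = 0 := by simp [Quaternion.inner_def]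

/-- the Lipschitz estimate -/
theorem fv_lip {x x' v v' q : ℍ[ℝ]} (hx' : ‖x'‖ = 1) (hv : 1 / 2 ≤ ‖v‖)
    (hv' : 1 / 2 ≤ ‖v'‖) (hq : ‖q‖ = 1) :
    ‖fv x v q - fv x' v' q‖ ≤ ‖x - x'‖ + 4 * ‖v - v'‖ := by
  have hv0 : v ≠ 0 := by rintro rfl; rw [norm_zero] at hv; norm_num at hv
  have hv0' : v' ≠ 0 := by rintro rfl; rw [norm_zero] at hv'; norm_num at hv'
  have hn : ‖v‖ ≠ 0 := norm_ne_zero_iff.mpr hv0
  have hn' : ‖v'‖ ≠ 0 := norm_ne_zero_iff.mpr hv0'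
  set A := v * q * v⁻¹ with hA
  set A' := v' * q * v'⁻¹ with hA'
  have nA : ‖A‖ = 1 := by
    rw [hA, norm_mul, norm_mul, norm_inv, hq]; field_simp
  have nA' : ‖A'‖ = 1 := by
    rw [hA', norm_mul, norm_mul, norm_inv, hq]; field_simp
  have eA : A * v = v * q := by rw [hA, mul_assoc, inv_mul_cancel₀ hv0, mul_one]
  have eA' : A' * v' = v' * q := by rw [hA', mul_assoc, inv_mul_cancel₀ hv0', mul_one]
  have e : (A - A') * v = (v - v') * q - A' * (v - v') := by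
    rw [sub_mul, sub_mul, mul_sub, eA, eA']; abel
  have h1 : ‖A - A'‖ * ‖v‖ ≤ 2 * ‖v - v'‖ := by
    calc ‖A - A'‖ * ‖v‖ = ‖(A - A') * v‖ := (norm_mul _ _).symm
      _ = ‖(v - v') * q - A' * (v - v')‖ := by rw [e]
      _ ≤ ‖(v - v') * q‖ + ‖A' * (v - v')‖ := norm_sub_le _ _
      _ = 2 * ‖v - v'‖ := by rw [norm_mul, norm_mul, hq, nA']; ring
  have h2 : ‖A - A'‖ ≤ 4 * ‖v - v'‖ := by
    have := norm_nonneg (A - A')
    nlinarith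
  calc ‖fv x v q - fv x' v' q‖ = ‖(x - x') * A + x' * (A - A')‖ := by
        congr 1
        simp only [fv, ← hA, ← hA']
        rw [sub_mul, mul_sub]; abel
    _ ≤ ‖(x - x') * A‖ + ‖x' * (A - A')‖ := norm_add_le _ _
    _ = ‖x - x'‖ + ‖A - A'‖ := by rw [norm_mul (x - x') A, norm_mul x' (A - A'), nA, hx']; ring
    _ ≤ ‖x - x'‖ + 4 * ‖v - v'‖ := by linarith

theorem fr_lip {x x' v v' : ℍ[ℝ]} (hx' : ‖x'‖ = 1) (hv : 1 / 2 ≤ ‖v‖)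
    (hv' : 1 / 2 ≤ ‖v'‖) {q : ℍ[ℝ]} (hq : q = qi ∨ q = qj ∨ q = qk) :
    ‖x * (v * q * v⁻¹) - x' * (v' * q * v'⁻¹)‖ ≤ ‖x - x'‖ + 4 * ‖v - v'‖ := by
  apply fv_lip hx' hv hv'
  rcases hq with rfl | rfl | rfl
  · exact norm_qi
  · exact norm_qj
  · exact norm_qk

/-! ### admissibility -/

theorem mem_cs1 {C : Type*} [DecidableEq C] {l : List (Fr C)} {c : C} :
    c ∈ cs1 l ↔ ∃ v ∈ l, v.1 = c := by
  simp [cs1]

theorem mem_cs2 {C : Type*} [DecidableEq C] {l : List (Fr C)} {c : C} :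
    c ∈ cs2 l ↔ ∃ v ∈ l, v.2.1 = c := by
  simp [cs2]

theorem mem_cs3 {C : Type*} [DecidableEq C] {l : List (Fr C)} {c : C} :
    c ∈ cs3 l ↔ ∃ v ∈ l, v.2.2 = c := by
  simp [cs3]

theorem ne_zero_of_half_le {v : ℍ[ℝ]} (hv : 1 / 2 ≤ ‖v‖) : v ≠ 0 := by
  rintro rfl; rw [norm_zero] at hv; norm_num at hv

/-- colours of different axes of nearby frames are different -/
theorem col_ne {κ : ℍ[ℝ] → Fin 10} {δ : ℝ} (h : GoodCol κ δ) {x v v' q q' : ℍ[ℝ]}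
    (hx : ‖x‖ = 1) (hv : 1 / 2 ≤ ‖v‖) (hv' : 1 / 2 ≤ ‖v'‖) (hq : ‖q‖ = 1) (hq' : ‖q'‖ = 1)
    (hqq : inner ℝ q q' = 0) (hd : 4 * ‖v - v'‖ < δ) : κ (fv x v q) ≠ κ (fv x v' q') := by
  intro heq
  have hv0 := ne_zero_of_half_le hv
  have hv0' := ne_zero_of_half_le hv'
  have h1 := h.sep _ _ (norm_fv hx hv0 hq) (norm_fv hx hv0' hq') heq
  have h2 : inner ℝ (fv x v q) (fv x v' q') =
      inner ℝ (fv x v q) (fv x v' q' - fv x v q') := by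
    rw [inner_sub_right, inner_fv hx hv0, hqq, sub_zero]
  have h3 : |inner ℝ (fv x v q) (fv x v' q' - fv x v q')| ≤
      ‖fv x v q‖ * ‖fv x v' q' - fv x v q'‖ := abs_real_inner_le_norm _ _
  have h4 : ‖fv x v' q' - fv x v q'‖ ≤ ‖x - x‖ + 4 * ‖v' - v‖ := fv_lip hx hv' hv hq'
  rw [norm_fv hx hv0 hq, one_mul] at h3
  rw [sub_self, norm_zero, zero_add, norm_sub_rev v' v] at h4
  rw [h2] at h1
  linarith

theorem Dj_frames {κ : ℍ[ℝ] → Fin 10} {δ : ℝ} (h : GoodCol κ δ) {ε : ℝ} (hε : 4 * ε < δ)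
    {x : ℍ[ℝ]} (hx : ‖x‖ = 1) {l : List ℍ[ℝ]} (hl : ∀ v ∈ l, 1 / 2 ≤ ‖v‖)
    (hd : ∀ v ∈ l, ∀ w ∈ l, ‖v - w‖ ≤ ε) : Dj (l.map (fr κ x)) := by
  have key : ∀ q q' : ℍ[ℝ], ‖q‖ = 1 → ‖q'‖ = 1 → inner ℝ q q' = 0 →
      ∀ v ∈ l, ∀ w ∈ l, κ (fv x v q) ≠ κ (fv x w q') := by
    intro q q' hq hq' hqq v hv w hw
    exact col_ne h hx (hl v hv) (hl w hw) hq hq' hqq
      (lt_of_le_of_lt (mul_le_mul_of_nonneg_left (hd v hv w hw) (by norm_num)) hε)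
  constructor
  · rw [Finset.disjoint_left]
    intro c h1 h2
    rw [mem_cs1] at h1
    rw [mem_cs2] at h2
    obtain ⟨_, hv1, rfl⟩ := h1
    obtain ⟨_, hw1, h3⟩ := h2
    obtain ⟨v, hv, rfl⟩ := List.mem_map.mp hv1
    obtain ⟨w, hw, rfl⟩ := List.mem_map.mp hw1
    exact key qi qj norm_qi norm_qj inner_qi_qj v hv w hw h3.symm
  · rw [Finset.disjoint_left]
    intro c h1 h2
    rw [mem_cs1] at h1
    rw [mem_cs3] at h2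
    obtain ⟨_, hv1, rfl⟩ := h1
    obtain ⟨_, hw1, h3⟩ := h2
    obtain ⟨v, hv, rfl⟩ := List.mem_map.mp hv1
    obtain ⟨w, hw, rfl⟩ := List.mem_map.mp hw1
    exact key qi qk norm_qi norm_qk inner_qi_qk v hv w hw h3.symm
  · rw [Finset.disjoint_left]
    intro c h1 h2
    rw [mem_cs2] at h1
    rw [mem_cs3] at h2
    obtain ⟨_, hv1, rfl⟩ := h1
    obtain ⟨_, hw1, h3⟩ := h2
    obtain ⟨v, hv, rfl⟩ := List.mem_map.mp hv1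
    obtain ⟨w, hw, rfl⟩ := List.mem_map.mp hw1
    exact key qj qk norm_qj norm_qk inner_qj_qk v hv w hw h3.symm

/-- a set of colours all realised in a set of small diameter is in the nerve -/
theorem Nv_of_forall {κ : ℍ[ℝ] → Fin 10} {η : ℝ} {s : Finset (Fin 10)} (P : ℍ[ℝ] → Prop)
    (h1 : ∀ i ∈ s, ∃ w, P w ∧ ‖w‖ = 1 ∧ κ w = i)
    (h2 : ∀ v w, P v → P w → ‖v - w‖ ≤ η) : Nv κ η s := by
  classical
  choose! w hw using h1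
  refine ⟨w, fun i hi => ⟨(hw i hi).2.1, (hw i hi).2.2⟩, fun i hi j hj => ?_⟩
  exact h2 _ _ (hw i hi).1 (hw j hj).1

/-- two-point version, for a general axis -/
theorem Nv_two_aux {κ : ℍ[ℝ] → Fin 10} {η ε : ℝ} {x x' : ℍ[ℝ]} (hx : ‖x‖ = 1) (hx' : ‖x'‖ = 1)
    (hη : ‖x - x'‖ + 4 * ε ≤ η) {l : List ℍ[ℝ]} (hl : ∀ v ∈ l, 1 / 2 ≤ ‖v‖)
    (hd : ∀ v ∈ l, ∀ w ∈ l, ‖v - w‖ ≤ ε) {q : ℍ[ℝ]} (hq : ‖q‖ = 1) {s : Finset (Fin 10)}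
    (hs : ∀ c ∈ s, ∃ v ∈ l, κ (fv x v q) = c ∨ κ (fv x' v q) = c) : Nv κ η s := by
  apply Nv_of_forall (fun w => ∃ v ∈ l, w = fv x v q ∨ w = fv x' v q)
  · intro i hi
    obtain ⟨v, hv, h⟩ := hs i hi
    rcases h with h | h
    · exact ⟨fv x v q, ⟨v, hv, Or.inl rfl⟩, norm_fv hx (ne_zero_of_half_le (hl v hv)) hq, h⟩
    · exact ⟨fv x' v q, ⟨v, hv, Or.inr rfl⟩, norm_fv hx' (ne_zero_of_half_le (hl v hv)) hq, h⟩
  · rintro a b ⟨v, hv, hav⟩ ⟨w, hw, hbw⟩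
    have hvw := hd v hv w hw
    have h0 : 0 ≤ ‖x - x'‖ := norm_nonneg _
    rcases hav with rfl | rfl <;> rcases hbw with rfl | rfl
    · have := fv_lip (x := x) (x' := x) hx (hl v hv) (hl w hw) hq
      rw [sub_self, norm_zero] at this
      linarith
    · have := fv_lip (x := x) (x' := x') hx' (hl v hv) (hl w hw) hq
      linarith
    · have := fv_lip (x := x') (x' := x) hx (hl v hv) (hl w hw) hq
      rw [norm_sub_rev x' x] at this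
      linarith
    · have := fv_lip (x := x') (x' := x') hx' (hl v hv) (hl w hw) hq
      rw [sub_self, norm_zero] at this
      linarith

theorem Nv_two_cs1 {κ : ℍ[ℝ] → Fin 10} {η ε : ℝ} {x x' : ℍ[ℝ]} (hx : ‖x‖ = 1) (hx' : ‖x'‖ = 1)
    (hη : ‖x - x'‖ + 4 * ε ≤ η) {l : List ℍ[ℝ]} (hl : ∀ v ∈ l, 1 / 2 ≤ ‖v‖)
    (hd : ∀ v ∈ l, ∀ w ∈ l, ‖v - w‖ ≤ ε) {l' : List (Fr (Fin 10))}
    (hl' : ∀ f ∈ l', ∃ v ∈ l, f = fr κ x v ∨ f = fr κ x' v) : Nv κ η (cs1 l') := by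
  apply Nv_two_aux hx hx' hη hl hd norm_qi
  intro c hc
  obtain ⟨f, hf, rfl⟩ := mem_cs1.mp hc
  obtain ⟨v, hv, rfl | rfl⟩ := hl' f hf
  · exact ⟨v, hv, Or.inl rfl⟩
  · exact ⟨v, hv, Or.inr rfl⟩

theorem Nv_two_cs2 {κ : ℍ[ℝ] → Fin 10} {η ε : ℝ} {x x' : ℍ[ℝ]} (hx : ‖x‖ = 1) (hx' : ‖x'‖ = 1)
    (hη : ‖x - x'‖ + 4 * ε ≤ η) {l : List ℍ[ℝ]} (hl : ∀ v ∈ l, 1 / 2 ≤ ‖v‖)
    (hd : ∀ v ∈ l, ∀ w ∈ l, ‖v - w‖ ≤ ε) {l' : List (Fr (Fin 10))}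
    (hl' : ∀ f ∈ l', ∃ v ∈ l, f = fr κ x v ∨ f = fr κ x' v) : Nv κ η (cs2 l') := by
  apply Nv_two_aux hx hx' hη hl hd norm_qj
  intro c hc
  obtain ⟨f, hf, rfl⟩ := mem_cs2.mp hc
  obtain ⟨v, hv, rfl | rfl⟩ := hl' f hf
  · exact ⟨v, hv, Or.inl rfl⟩
  · exact ⟨v, hv, Or.inr rfl⟩

theorem Nv_two_cs3 {κ : ℍ[ℝ] → Fin 10} {η ε : ℝ} {x x' : ℍ[ℝ]} (hx : ‖x‖ = 1) (hx' : ‖x'‖ = 1)
    (hη : ‖x - x'‖ + 4 * ε ≤ η) {l : List ℍ[ℝ]} (hl : ∀ v ∈ l, 1 / 2 ≤ ‖v‖)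
    (hd : ∀ v ∈ l, ∀ w ∈ l, ‖v - w‖ ≤ ε) {l' : List (Fr (Fin 10))}
    (hl' : ∀ f ∈ l', ∃ v ∈ l, f = fr κ x v ∨ f = fr κ x' v) : Nv κ η (cs3 l') := by
  apply Nv_two_aux hx hx' hη hl hd norm_qk
  intro c hc
  obtain ⟨f, hf, rfl⟩ := mem_cs3.mp hc
  obtain ⟨v, hv, rfl | rfl⟩ := hl' f hf
  · exact ⟨v, hv, Or.inl rfl⟩
  · exact ⟨v, hv, Or.inr rfl⟩

theorem InN_frames {κ : ℍ[ℝ] → Fin 10} {η ε : ℝ} (hε : 4 * ε ≤ η)
    {x : ℍ[ℝ]} (hx : ‖x‖ = 1) {l : List ℍ[ℝ]} (hl : ∀ v ∈ l, 1 / 2 ≤ ‖v‖)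
    (hd : ∀ v ∈ l, ∀ w ∈ l, ‖v - w‖ ≤ ε) : InN (Nv κ η) (l.map (fr κ x)) := by
  have hη : ‖x - x‖ + 4 * ε ≤ η := by rw [sub_self, norm_zero]; linarith
  have hm : ∀ f ∈ l.map (fr κ x), ∃ v ∈ l, f = fr κ x v ∨ f = fr κ x v := by
    intro f hf
    obtain ⟨v, hv, rfl⟩ := List.mem_map.mp hf
    exact ⟨v, hv, Or.inl rfl⟩
  exact ⟨Nv_two_cs1 hx hx hη hl hd hm, Nv_two_cs2 hx hx hη hl hd hm,
    Nv_two_cs3 hx hx hη hl hd hm⟩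

theorem col_notMem {κ : ℍ[ℝ] → Fin 10} {δ η : ℝ} (h : GoodCol κ δ) (hη : η < δ)
    {T : Finset (Fin 10)} {w : Fin 10 → ℍ[ℝ]}
    (hw : (∀ i ∈ T, ‖w i‖ = 1 ∧ κ (w i) = i) ∧ ∀ i ∈ T, ∀ j ∈ T, ‖w i - w j‖ ≤ η)
    {t0 : Fin 10} (ht0 : t0 ∈ T) {v q : ℍ[ℝ]} (hv : v ≠ 0) (hq : ‖q‖ = 1)
    (hq1 : inner ℝ 1 q = 0) : κ (fv (w t0) v q) ∉ T := by
  intro hc
  set c := κ (fv (w t0) v q) with hcdef
  have hx := (hw.1 t0 ht0).1
  have h1 := h.sep _ _ (norm_fv hx hv hq) (hw.1 c hc).1 (by rw [(hw.1 c hc).2])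
  have h2 : inner ℝ (fv (w t0) v q) (w c) = inner ℝ (fv (w t0) v q) (w c - w t0) := by
    rw [inner_sub_right, real_inner_comm (w t0), inner_x_fv hx hv, hq1, sub_zero]
  have h3 := abs_real_inner_le_norm (fv (w t0) v q) (w c - w t0)
  rw [norm_fv hx hv hq, one_mul] at h3
  have h4 := hw.2 c hc t0 ht0
  rw [h2] at h1
  linarith

theorem frames_disj {κ : ℍ[ℝ] → Fin 10} {δ η : ℝ} (h : GoodCol κ δ) (hη : η < δ)
    {T : Finset (Fin 10)} {w : Fin 10 → ℍ[ℝ]}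
    (hw : (∀ i ∈ T, ‖w i‖ = 1 ∧ κ (w i) = i) ∧ ∀ i ∈ T, ∀ j ∈ T, ‖w i - w j‖ ≤ η)
    {t0 : Fin 10} (ht0 : t0 ∈ T) {l : List ℍ[ℝ]} (hl : ∀ v ∈ l, 1 / 2 ≤ ‖v‖) :
    Disjoint (cs1 (l.map (fr κ (w t0)))) T ∧ Disjoint (cs2 (l.map (fr κ (w t0)))) T ∧
      Disjoint (cs3 (l.map (fr κ (w t0)))) T := by
  refine ⟨?_, ?_, ?_⟩
  · rw [Finset.disjoint_left]
    intro c hc
    obtain ⟨_, hf, rfl⟩ := mem_cs1.mp hc
    obtain ⟨v, hv, rfl⟩ := List.mem_map.mp hf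
    exact col_notMem h hη hw ht0 (ne_zero_of_half_le (hl v hv)) norm_qi inner_one_qi
  · rw [Finset.disjoint_left]
    intro c hc
    obtain ⟨_, hf, rfl⟩ := mem_cs2.mp hc
    obtain ⟨v, hv, rfl⟩ := List.mem_map.mp hf
    exact col_notMem h hη hw ht0 (ne_zero_of_half_le (hl v hv)) norm_qj inner_one_qj
  · rw [Finset.disjoint_left]
    intro c hc
    obtain ⟨_, hf, rfl⟩ := mem_cs3.mp hc
    obtain ⟨v, hv, rfl⟩ := List.mem_map.mp hf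
    exact col_notMem h hη hw ht0 (ne_zero_of_half_le (hl v hv)) norm_qk inner_one_qk

end Crest.Agent.R050
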