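import Crest.Agent.R050.Par

/-!
# The sweep lemma for rid 50 (S0069)
-/

namespace Crest.Agent.R050

section sweep
variable {C : Type*} [DecidableEq C]

theorem not_four_aux {K : Finset C} (hK : K.card = 3) {x y z w : C} (hx : x ∈ K) (hy : y ∈ K)
    (hz : z ∈ K) (hw : w ∈ K) :
    (if ({y, z, w} : Finset C) = K then (1 : ZMod 2) else 0)
      + (if ({x, z, w} : Finset C) = K then 1 else 0)
      + (if ({x, y, w} : Finset C) = K then 1 else 0)
      + (if ({x, y, z} : Finset C) = K then 1 else 0) = 0 := by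
  have key : ∀ p q r : C, p ∈ K → q ∈ K → r ∈ K →
      (({p, q, r} : Finset C) = K ↔ p ≠ q ∧ p ≠ r ∧ q ≠ r) := by
    intro p q r hp hq hr
    rw [eq_iff_of_subset (by
      intro t ht
      simp only [Finset.mem_insert, Finset.mem_singleton] at ht
      rcases ht with rfl | rfl | rfl
      · exact hp
      · exact hq
      · exact hr), hK, card_three_iff]
  simp only [key _ _ _ hy hz hw, key _ _ _ hx hz hw, key _ _ _ hx hy hw, key _ _ _ hx hy hz]
  have h4 : x = y ∨ x = z ∨ x = w ∨ y = z ∨ y = w ∨ z = w := by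
    by_contra h
    push Not at h
    obtain ⟨h1, h2, h3, h4, h5, h6⟩ := h
    have hc : ({x, y, z, w} : Finset C).card = 4 := by
      rw [Finset.card_insert_of_notMem, (card_three_iff y z w).2 ⟨h4, h5, h6⟩]
      simp [h1, h2, h3]
    have : ({x, y, z, w} : Finset C) ⊆ K := by
      intro t ht
      simp only [Finset.mem_insert, Finset.mem_singleton] at ht
      rcases ht with rfl | rfl | rfl | rfl
      · exact hx
      · exact hy
      · exact hz
      · exact hw
    have := Finset.card_le_card this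
    omega
  have t2 : (1 : ZMod 2) + 1 = 0 := rfl
  rcases h4 with rfl | rfl | rfl | rfl | rfl | rfl
  · by_cases h : x ≠ z ∧ x ≠ w ∧ z ≠ w
    · simp [h, t2]
    · simp [h]
  · by_cases h : x ≠ y ∧ x ≠ w ∧ y ≠ w
    · obtain ⟨h1, h2, h3⟩ := h
      simp [h1, h2, h3, h1.symm, t2]
    · have h' : ¬ (y ≠ x ∧ y ≠ w ∧ x ≠ w) := by
        rintro ⟨a, b, c⟩; exact h ⟨a.symm, c, b⟩
      simp only [h, h', if_false]; simp
  · by_cases h : x ≠ y ∧ x ≠ z ∧ y ≠ z
    · obtain ⟨h1, h2, h3⟩ := h
      simp [h1, h2, h3, h1.symm, h2.symm, t2]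
    · have h' : ¬ (y ≠ z ∧ y ≠ x ∧ z ≠ x) := by
        rintro ⟨a, b, c⟩; exact h ⟨b.symm, c.symm, a⟩
      simp only [h, h', if_false]; simp
  · by_cases h : x ≠ y ∧ x ≠ w ∧ y ≠ w
    · obtain ⟨h1, h2, h3⟩ := h
      simp [h1, h2, h3, t2]
    · simp only [h, if_false]; simp
  · by_cases h : x ≠ y ∧ x ≠ z ∧ y ≠ z
    · obtain ⟨h1, h2, h3⟩ := h
      simp [h1, h2, h3, h3.symm, t2]
    · have h' : ¬ (x ≠ z ∧ x ≠ y ∧ z ≠ y) := by
        rintro ⟨a, b, c⟩; exact h ⟨b, a, c.symm⟩
      simp only [h, h', if_false]; simp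
  · by_cases h : x ≠ y ∧ x ≠ z ∧ y ≠ z
    · obtain ⟨h1, h2, h3⟩ := h
      simp [h1, h2, h3, t2]
    · simp only [h, if_false]; simp

theorem cob_chi_ext {N : Finset C → Prop} {K : Finset C}
    (hK : K.card = 3) (hext : ∀ d, d ∉ K → ¬ N (insert d K)) (a b c d : Fr C)
    (hNl : N (cs1 [a, b, c, d])) : cob (chi K) [a, b, c, d] = 0 := by
  rw [cob_four, chi_three hK, chi_three hK, chi_three hK, chi_three hK]
  rw [cs1_four] at hNl
  by_cases hx : a.1 ∈ K
  · by_cases hy : b.1 ∈ K
    · by_cases hz : c.1 ∈ K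
      · by_cases hw : d.1 ∈ K
        · exact not_four_aux hK hx hy hz hw
        · have h1 : ({b.1, c.1, d.1} : Finset C) ≠ K := by rintro rfl; simp at hw
          have h2 : ({a.1, c.1, d.1} : Finset C) ≠ K := by rintro rfl; simp at hw
          have h3 : ({a.1, b.1, d.1} : Finset C) ≠ K := by rintro rfl; simp at hw
          have h4 : ({a.1, b.1, c.1} : Finset C) ≠ K := by
            rintro rfl
            refine hext d.1 hw ?_
            convert hNl using 1
            ext t; simp; tauto
          simp [h1, h2, h3, h4]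
      · have h1 : ({b.1, c.1, d.1} : Finset C) ≠ K := by rintro rfl; simp at hz
        have h2 : ({a.1, c.1, d.1} : Finset C) ≠ K := by rintro rfl; simp at hz
        have h3 : ({a.1, b.1, c.1} : Finset C) ≠ K := by rintro rfl; simp at hz
        have h4 : ({a.1, b.1, d.1} : Finset C) ≠ K := by
          rintro rfl
          refine hext c.1 hz ?_
          convert hNl using 1
          ext t; simp; tauto
        simp [h1, h2, h3, h4]
    · have h1 : ({b.1, c.1, d.1} : Finset C) ≠ K := by rintro rfl; simp at hy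
      have h2 : ({a.1, b.1, d.1} : Finset C) ≠ K := by rintro rfl; simp at hy
      have h3 : ({a.1, b.1, c.1} : Finset C) ≠ K := by rintro rfl; simp at hy
      have h4 : ({a.1, c.1, d.1} : Finset C) ≠ K := by
        rintro rfl
        refine hext b.1 hy ?_
        convert hNl using 1
        ext t; simp; tauto
      simp [h1, h2, h3, h4]
  · have h1 : ({a.1, c.1, d.1} : Finset C) ≠ K := by rintro rfl; simp at hx
    have h2 : ({a.1, b.1, d.1} : Finset C) ≠ K := by rintro rfl; simp at hx
    have h3 : ({a.1, b.1, c.1} : Finset C) ≠ K := by rintro rfl; simp at hx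
    have h4 : ({b.1, c.1, d.1} : Finset C) ≠ K := by
      rintro rfl
      refine hext a.1 hx ?_
      convert hNl using 1
    simp [h1, h2, h3, h4]

/-- local constancy -/
theorem sweep_lemma {C : Type*} [DecidableEq C] (N : Finset C → Prop) (K : Finset C)
    (hK : K.card = 3) (hN : ∀ i, i ∉ K → ¬ N (insert i K)) (D D' H H' : Ch (Fr C))
    (h : D + D' = bd H + (H' + mp s23 H'))
    (aH : Sup (fun l => l.length = 4 ∧ N (cs1 l)) H) : ev (chi K) D = ev (chi K) D' := by
  have h1 : ev (chi K) (bd H) = 0 := by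
    rw [ev_bd]
    refine ev_eq_zero aH ?_
    rintro l ⟨hl, hNl⟩
    match l, hl, hNl with
    | [a, b, c, d], _, hNl => exact cob_chi_ext hK hN a b c d hNl
  have h2 := congrArg (ev (chi K)) h
  rw [map_add, map_add, h1, ev_chi_s23, zero_add] at h2
  have h3 : ev (chi K) D = -(ev (chi K) D') := by
    rw [eq_neg_iff_add_eq_zero]; exact h2
  rw [h3, neg_self]

end sweep

end Crest.Agent.R050
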