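import Crest.Agent.R050.Defs

/-!
# R050 / Veronese: the statement of S0069 follows from the non-existence of good colourings
-/

set_option autoImplicit false

namespace Crest.Agent.R050

open scoped Quaternion

/-- The nine entries of the rotation matrix of the quaternion `x`. -/
noncomputable def ver (x : ℍ[ℝ]) : EuclideanSpace ℝ (Fin 9) :=
  WithLp.toLp 2 ![x.re ^ 2 + x.imI ^ 2 - x.imJ ^ 2 - x.imK ^ 2,
    2 * (x.imI * x.imJ - x.re * x.imK), 2 * (x.imI * x.imK + x.re * x.imJ),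
    2 * (x.imI * x.imJ + x.re * x.imK), x.re ^ 2 - x.imI ^ 2 + x.imJ ^ 2 - x.imK ^ 2,
    2 * (x.imJ * x.imK - x.re * x.imI),
    2 * (x.imI * x.imK - x.re * x.imJ), 2 * (x.imJ * x.imK + x.re * x.imI),
    x.re ^ 2 - x.imI ^ 2 - x.imJ ^ 2 + x.imK ^ 2]

theorem ver_neg (x : ℍ[ℝ]) : ver (-x) = ver x := by
  unfold ver
  simp

theorem inner_quat (x y : ℍ[ℝ]) :
    inner ℝ x y = x.re * y.re + x.imI * y.imI + x.imJ * y.imJ + x.imK * y.imK := by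
  rw [Quaternion.inner_def]
  simp

theorem normSq_quat (x : ℍ[ℝ]) :
    ‖x‖ ^ 2 = x.re ^ 2 + x.imI ^ 2 + x.imJ ^ 2 + x.imK ^ 2 := by
  rw [sq, ← Quaternion.normSq_eq_norm_mul_self, Quaternion.normSq_def']

theorem dist_ver_sq {x y : ℍ[ℝ]} (hx : ‖x‖ = 1) (hy : ‖y‖ = 1) :
    dist (ver x) (ver y) ^ 2 = 8 * (1 - (inner ℝ x y) ^ 2) := by
  have h1 : x.re ^ 2 + x.imI ^ 2 + x.imJ ^ 2 + x.imK ^ 2 = 1 := by
    rw [← normSq_quat, hx]; norm_num
  have h2 : y.re ^ 2 + y.imI ^ 2 + y.imJ ^ 2 + y.imK ^ 2 = 1 := by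
    rw [← normSq_quat, hy]; norm_num
  have key : dist (ver x) (ver y) ^ 2 =
      3 * (x.re ^ 2 + x.imI ^ 2 + x.imJ ^ 2 + x.imK ^ 2) ^ 2 +
      3 * (y.re ^ 2 + y.imI ^ 2 + y.imJ ^ 2 + y.imK ^ 2) ^ 2 +
      2 * (x.re ^ 2 + x.imI ^ 2 + x.imJ ^ 2 + x.imK ^ 2) *
        (y.re ^ 2 + y.imI ^ 2 + y.imJ ^ 2 + y.imK ^ 2) - 8 * (inner ℝ x y) ^ 2 := by
    rw [EuclideanSpace.dist_eq, Real.sq_sqrt (Finset.sum_nonneg fun _ _ => sq_nonneg _),
      inner_quat]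
    simp only [Real.dist_eq, sq_abs]
    simp only [ver, Fin.sum_univ_succ, Fin.sum_univ_zero, Matrix.cons_val_zero,
      Matrix.cons_val_succ]
    ring
  rw [key, h1, h2]
  ring

theorem reduction (h : ∀ κ δ, ¬ GoodCol κ δ) :
    ∃ S : Set (EuclideanSpace ℝ (Fin 9)), Bornology.IsBounded S ∧ S.Nontrivial ∧
      ∀ c : EuclideanSpace ℝ (Fin 9) → Fin 10, ∃ i : Fin 10,
        Metric.diam S ≤ Metric.diam (S ∩ c ⁻¹' {i}) := by
  set S : Set (EuclideanSpace ℝ (Fin 9)) := ver '' {x : ℍ[ℝ] | ‖x‖ = 1} with hS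
  have hdist : ∀ p ∈ S, ∀ q ∈ S, dist p q ≤ Real.sqrt 8 := by
    rintro _ ⟨x, hx, rfl⟩ _ ⟨y, hy, rfl⟩
    apply Real.le_sqrt_of_sq_le
    rw [dist_ver_sq hx hy]
    nlinarith [sq_nonneg (inner ℝ x y : ℝ)]
  have hbd : Bornology.IsBounded S :=
    Metric.isBounded_iff.2 ⟨Real.sqrt 8, fun p hp q hq => hdist p hp q hq⟩
  have n1 : ‖(1 : ℍ[ℝ])‖ = 1 := norm_one
  obtain ⟨I, r0, r1, r2, r3⟩ : ∃ I : ℍ[ℝ], I.re = 0 ∧ I.imI = 1 ∧ I.imJ = 0 ∧ I.imK = 0 :=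
    ⟨⟨0, 1, 0, 0⟩, rfl, rfl, rfl, rfl⟩
  have nI : ‖I‖ = 1 := by
    have := normSq_quat I
    rw [r0, r1, r2, r3] at this
    nlinarith [norm_nonneg I]
  refine ⟨S, hbd, ?_, ?_⟩
  · refine ⟨ver 1, ⟨1, n1, rfl⟩, ver I, ⟨_, nI, rfl⟩, ?_⟩
    intro heq
    have h1 := dist_ver_sq n1 nI
    rw [heq, dist_self, inner_quat, r0, r1, r2, r3] at h1
    simp at h1
  · intro c
    by_contra hcon
    push Not at hcon
    -- the largest class diameter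
    obtain ⟨i0, -, hi0⟩ := Finset.exists_max_image (Finset.univ : Finset (Fin 10))
      (fun i => Metric.diam (S ∩ c ⁻¹' {i})) ⟨0, Finset.mem_univ _⟩
    set D := Metric.diam (S ∩ c ⁻¹' {i0}) with hD
    have hD0 : 0 ≤ D := Metric.diam_nonneg
    have hSd : Metric.diam S ≤ Real.sqrt 8 :=
      Metric.diam_le_of_forall_dist_le (Real.sqrt_nonneg _) hdist
    have hDlt : D < Real.sqrt 8 := (hcon i0).trans_le hSd
    have hDsq : D ^ 2 < 8 := by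
      have h8 : Real.sqrt 8 ^ 2 = 8 := Real.sq_sqrt (by norm_num)
      nlinarith [Real.sqrt_nonneg 8]
    have hpos : 0 < 1 - D ^ 2 / 8 := by linarith
    refine h (fun v => c (ver (‖v‖⁻¹ • v))) (Real.sqrt (1 - D ^ 2 / 8))
      ⟨Real.sqrt_pos.2 hpos, ?_, ?_⟩
    · intro t v ht
      have h1 : ‖t • v‖⁻¹ • (t • v) = (‖t‖⁻¹ * t) • (‖v‖⁻¹ • v) := by
        rw [norm_smul, mul_inv, smul_smul, smul_smul]
        congr 1
        ring
      rw [h1]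
      rcases lt_or_gt_of_ne ht with ht | ht
      · have : ‖t‖⁻¹ * t = -1 := by
          rw [Real.norm_eq_abs, abs_of_neg ht, inv_neg, neg_mul, inv_mul_cancel₀ ht.ne]
        rw [this, neg_smul, one_smul, ver_neg]
      · have : ‖t‖⁻¹ * t = 1 := by
          rw [Real.norm_eq_abs, abs_of_pos ht, inv_mul_cancel₀ ht.ne']
        rw [this, one_smul]
    · intro u w hu hw huw
      beta_reduce at huw
      rw [hu, hw, inv_one, one_smul, one_smul] at huw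
      have hu' : ver u ∈ S ∩ c ⁻¹' {c (ver u)} := ⟨⟨u, hu, rfl⟩, rfl⟩
      have hw' : ver w ∈ S ∩ c ⁻¹' {c (ver u)} := ⟨⟨w, hw, rfl⟩, huw.symm⟩
      have h1 : dist (ver u) (ver w) ≤ D :=
        (Metric.dist_le_diam_of_mem (hbd.subset Set.inter_subset_left) hu' hw').trans
          (hi0 _ (Finset.mem_univ _))
      have h2 : dist (ver u) (ver w) ^ 2 ≤ D ^ 2 :=
        pow_le_pow_left₀ dist_nonneg h1 2
      rw [dist_ver_sq hu hw] at h2
      rw [← Real.sqrt_sq_eq_abs]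
      apply Real.sqrt_le_sqrt
      linarith

end Crest.Agent.R050
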