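import Crest.Agent.R050.CRel
import Crest.Agent.R050.QuatFrame
import Crest.Agent.R050.Coarse
import Crest.Agent.R050.BU
import Crest.Agent.R050.Geo
import Crest.Agent.R050.Par
import Crest.Agent.R050.Sweep
import Crest.Agent.R050.Veronese

/-!
# Main argument for rid 50 (S0069), modulo the split lemma and the finite core
-/

namespace Crest.Agent.R050

open scoped Quaternion

/-- the statement of `split10` -/
def SplitStmt : Prop := ∀ (T K : Finset (Fin 10)), T.card = 4 → K.card = 3 → K ⊆ Tᶜ →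
  ∀ (D0 D1 D2 D3 : Ch (Fr (Fin 10))), bd D0 = sg [] → bd D1 = D0 + mp s12 D0 →
  bd D2 = D1 + mp s12 D1 → bd D3 = D2 + mp s12 D2 → bd D3 = D2 + mp s23 D2 →
  D3 + mp s12 D3 = D3 + mp s23 D3 →
  Sup (fun l => l.length = 1 ∧ Dj l ∧ Sm l ∧ cs1 l ⊆ Tᶜ ∧ cs2 l ⊆ Tᶜ ∧ cs3 l ⊆ Tᶜ) D0 →
  Sup (fun l => l.length = 2 ∧ Dj l ∧ Sm l ∧ cs1 l ⊆ Tᶜ ∧ cs2 l ⊆ Tᶜ ∧ cs3 l ⊆ Tᶜ) D1 →
  Sup (fun l => l.length = 3 ∧ Dj l ∧ Sm l ∧ cs1 l ⊆ Tᶜ ∧ cs2 l ⊆ Tᶜ ∧ cs3 l ⊆ Tᶜ) D2 →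
  Sup (fun l => l.length = 4 ∧ Dj l ∧ Sm l ∧ cs1 l ⊆ Tᶜ ∧ cs2 l ⊆ Tᶜ ∧ cs3 l ⊆ Tᶜ) D3 →
  ev (chi K) D2 + ev (chi (Tᶜ \ K)) D2 = 1

open Classical in
/-- the statement of `core` -/
def CoreStmt : Prop := ∀ (N : Finset (Fin 10) → Prop),
    (∀ s t, N s → t ⊆ s → N t) →
    (∀ a b c, N a → N b → N c → a ∪ b ∪ c ≠ Finset.univ) →
    (∀ s t, N s → N t → s.card = 4 → t.card = 4 → ¬ Disjoint s t) →
    (∃ s, N s ∧ s.card = 4) →
    (∀ T K, N T → T.card = 4 → K.card = 3 → K ⊆ Tᶜ → N K ∨ N (Tᶜ \ K)) →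
    (∀ T e, N T → T.card = 4 → e.card = 2 → e ⊆ Tᶜ →
      Even (Finset.card {c ∈ Tᶜ \ e | N (insert c e)})) →
    (∀ T K, N T → T.card = 4 → K.card = 3 → K ⊆ Tᶜ → N K →
      ∃ i, i ∉ K ∧ N (insert i K)) → False

/-- The chains `D x k` of frames attached to unit quaternions `x`. -/
structure ChainData (κ : ℍ[ℝ] → Fin 10) (η : ℝ) where
  D : ℍ[ℝ] → ℕ → Ch (Fr (Fin 10))
  b0 : ∀ x, ‖x‖ = 1 → bd (D x 0) = sg []
  bs : ∀ x, ‖x‖ = 1 → ∀ k, k < 3 → bd (D x (k + 1)) = D x k + mp s12 (D x k)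
  bs' : ∀ x, ‖x‖ = 1 → ∀ k, k < 3 → bd (D x (k + 1)) = D x k + mp s23 (D x k)
  sym : ∀ x, ‖x‖ = 1 → D x 3 + mp s12 (D x 3) = D x 3 + mp s23 (D x 3)
  adm : ∀ x, ‖x‖ = 1 → ∀ k, k ≤ 3 →
    Sup (fun l => l.length = k + 1 ∧ Dj l ∧ InN (Nv κ η) l) (D x k)
  avoid : ∀ (T : Finset (Fin 10)) (w : Fin 10 → ℍ[ℝ]),
    (∀ i ∈ T, ‖w i‖ = 1 ∧ κ (w i) = i) → (∀ i ∈ T, ∀ j ∈ T, ‖w i - w j‖ ≤ η) →
    ∀ t ∈ T, ∀ k, k ≤ 3 → Sup (fun l => cs1 l ⊆ Tᶜ ∧ cs2 l ⊆ Tᶜ ∧ cs3 l ⊆ Tᶜ) (D (w t) k)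
  ρ : ℝ
  ρpos : 0 < ρ
  hom : ∀ x x', ‖x‖ = 1 → ‖x'‖ = 1 → ‖x - x'‖ ≤ ρ →
    ∃ H H', D x 2 + D x' 2 = bd H + (H' + mp s23 H') ∧
      Sup (fun l => l.length = 4 ∧ Nv κ η (cs1 l)) H

theorem zmod2_cases (a : ZMod 2) : a = 0 ∨ a = 1 := by
  revert a; decide

theorem chi_ne_zero {C : Type*} [DecidableEq C] {K : Finset C} {l : List (Fr C)}
    (h : chi K l ≠ 0) : cs1 l = K := by
  unfold chi at h
  split_ifs at h with h1
  · exact h1.2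
  · exact absurd rfl h

/-- final combination -/
theorem end_contra (hsplit : SplitStmt) (hcore : CoreStmt) {κ : ℍ[ℝ] → Fin 10} {δ η : ℝ} (h : GoodCol κ δ) (hη0 : 0 < η) (hη : η < δ)
    (X : ChainData κ η) : False := by
  classical
  set N := Nv κ η with hN
  have three : ∀ a b c, N a → N b → N c → a ∪ b ∪ c ≠ Finset.univ :=
    fun a b c ha hb hc => Nv_three h hη ha hb hc
  have disj : ∀ s t, N s → N t → s.card = 4 → t.card = 4 → ¬ Disjoint s t :=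
    fun s t hs ht cs ct => Nv_disj h hη0 hη hs ht cs ct
  have down : ∀ s t, N s → t ⊆ s → N t := fun s t hs hst => Nv_down hs hst
  -- choose base points
  have base : ∀ T, N T → T.card = 4 → ∃ x, ‖x‖ = 1 ∧ ∀ k, k ≤ 3 →
      Sup (fun l => l.length = k + 1 ∧ Dj l ∧ Sm l ∧ cs1 l ⊆ Tᶜ ∧ cs2 l ⊆ Tᶜ ∧ cs3 l ⊆ Tᶜ)
        (X.D x k) := by
    intro T hT cT
    obtain ⟨w, hw1, hw2⟩ := hT
    have hTne : T.Nonempty := by rw [← Finset.card_pos, cT]; norm_num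
    obtain ⟨t, ht⟩ := hTne
    refine ⟨w t, (hw1 t ht).1, fun k hk => ?_⟩
    intro l hl
    have ha := X.adm (w t) (hw1 t ht).1 k hk l hl
    have hb := X.avoid T w hw1 hw2 t ht k hk l hl
    have small : ∀ P : Finset (Fin 10), N P → P ⊆ Tᶜ → P.card ≤ 3 := by
      intro P hP hPT
      by_contra hcon
      push Not at hcon
      obtain ⟨Q, hQP, hQc⟩ := Finset.exists_subset_card_eq (show 4 ≤ P.card by omega)
      refine disj T Q ⟨w, hw1, hw2⟩ (down P Q hP hQP) cT hQc ?_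
      rw [Finset.disjoint_left]
      intro a haT haQ
      exact (Finset.mem_compl.1 (hPT (hQP haQ))) haT
    exact ⟨ha.1, ha.2.1, ⟨small _ ha.2.2.n1 hb.1, small _ ha.2.2.n2 hb.2.1,
      small _ ha.2.2.n3 hb.2.2⟩, hb⟩
  -- Z = 1 implies N
  have Z_imp : ∀ x, ‖x‖ = 1 → ∀ K : Finset (Fin 10), ev (chi K) (X.D x 2) ≠ 0 → N K := by
    intro x hx K hK
    obtain ⟨l, hl, hl2⟩ := exists_of_ev_ne_zero (X.adm x hx 2 (by norm_num)) hK
    have := chi_ne_zero hl2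
    rw [← this]; exact hl.2.2.n1
  have spl : ∀ T K, N T → T.card = 4 → K.card = 3 → K ⊆ Tᶜ → ∀ x, ‖x‖ = 1 → (∀ k, k ≤ 3 →
      Sup (fun l => l.length = k + 1 ∧ Dj l ∧ Sm l ∧ cs1 l ⊆ Tᶜ ∧ cs2 l ⊆ Tᶜ ∧ cs3 l ⊆ Tᶜ)
        (X.D x k)) → ev (chi K) (X.D x 2) + ev (chi (Tᶜ \ K)) (X.D x 2) = 1 := by
    intro T K hT cT cK hKT x hx hs
    exact hsplit T K cT cK hKT (X.D x 0) (X.D x 1) (X.D x 2) (X.D x 3) (X.b0 x hx)
      (X.bs x hx 0 (by norm_num)) (X.bs x hx 1 (by norm_num)) (X.bs x hx 2 (by norm_num))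
      (X.bs' x hx 2 (by norm_num)) (X.sym x hx) (hs 0 (by norm_num)) (hs 1 (by norm_num))
      (hs 2 (by norm_num)) (hs 3 (by norm_num))
  have Z_iff : ∀ T K, N T → T.card = 4 → K.card = 3 → K ⊆ Tᶜ → ∀ x, ‖x‖ = 1 → (∀ k, k ≤ 3 →
      Sup (fun l => l.length = k + 1 ∧ Dj l ∧ Sm l ∧ cs1 l ⊆ Tᶜ ∧ cs2 l ⊆ Tᶜ ∧ cs3 l ⊆ Tᶜ)
        (X.D x k)) → (ev (chi K) (X.D x 2) = if N K then 1 else 0) := by
    intro T K hT cT cK hKT x hx hs
    have h1 := spl T K hT cT cK hKT x hx hs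
    by_cases hK : N K
    · rw [if_pos hK]
      rcases zmod2_cases (ev (chi K) (X.D x 2)) with h0 | h0
      · exfalso
        have h2 : ev (chi (Tᶜ \ K)) (X.D x 2) ≠ 0 := by
          rw [h0, zero_add] at h1; rw [h1]; exact one_ne_zero
        refine three T K (Tᶜ \ K) hT hK (Z_imp x hx _ h2) ?_
        ext a
        simp only [Finset.mem_union, Finset.mem_sdiff, Finset.mem_compl, Finset.mem_univ, iff_true]
        tauto
      · exact h0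
    · rw [if_neg hK]
      by_contra hcon
      exact hK (Z_imp x hx K hcon)
  refine hcore N down three disj ?_ ?_ ?_ ?_
  · obtain ⟨T, hT, hNT⟩ := exists_quad h hη0
    exact ⟨T, hNT, hT⟩
  · intro T K hT cT cK hKT
    obtain ⟨x, hx, hs⟩ := base T hT cT
    have h1 := spl T K hT cT cK hKT x hx hs
    by_contra hcon
    push Not at hcon
    have e1 : ev (chi K) (X.D x 2) = 0 := by
      by_contra hc; exact hcon.1 (Z_imp x hx K hc)
    have e2 : ev (chi (Tᶜ \ K)) (X.D x 2) = 0 := by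
      by_contra hc; exact hcon.2 (Z_imp x hx _ hc)
    rw [e1, e2] at h1
    simp at h1
  · intro T e hT cT ce heT
    obtain ⟨x, hx, hs⟩ := base T hT cT
    have hsum := par_lemma (X.D x 1) (X.D x 2) (X.bs' x hx 1 (by norm_num)) Tᶜ
      ((hs 2 (by norm_num)).mono fun l hl => ⟨hl.1, hl.2.2.2.1⟩) e ce heT
    have hsum2 : ∑ g ∈ Tᶜ \ e, (if N (insert g e) then (1 : ZMod 2) else 0)
        = ∑ g ∈ Tᶜ \ e, ev (chi (insert g e)) (X.D x 2) := by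
      refine Finset.sum_congr rfl fun g hg => ?_
      rw [Finset.mem_sdiff] at hg
      refine (Z_iff T (insert g e) hT cT ?_ ?_ x hx hs).symm
      · rw [Finset.card_insert_of_notMem hg.2, ce]
      · intro a ha
        rcases Finset.mem_insert.1 ha with rfl | ha
        · exact hg.1
        · exact heT ha
    rw [hsum] at hsum2
    rw [Finset.sum_boole] at hsum2
    rw [← ZMod.natCast_eq_zero_iff_even]
    convert hsum2
  · intro T K hT cT cK hKT hNK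
    by_contra hcon
    push Not at hcon
    obtain ⟨x, hx, hs⟩ := base T hT cT
    have h1 := Z_iff T K hT cT cK hKT x hx hs
    rw [if_pos hNK] at h1
    obtain ⟨w, hw1, hw2⟩ := hNK
    have hKne : K.Nonempty := by rw [← Finset.card_pos, cK]; norm_num
    obtain ⟨t, ht⟩ := hKne
    have hloc : ∀ y y', ‖y‖ = 1 → ‖y'‖ = 1 → ‖y - y'‖ ≤ X.ρ →
        ev (chi K) (X.D y 2) = ev (chi K) (X.D y' 2) := by
      intro y y' hy hy' hyy
      obtain ⟨H, H', hH, aH⟩ := X.hom y y' hy hy' hyy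
      exact sweep_lemma N K cK hcon _ _ H H' hH aH
    have hc := sphere_const (f := fun y => ev (chi K) (X.D y 2)) X.ρpos hloc x (w t) hx
      (hw1 t ht).1
    have h0 : ev (chi K) (X.D (w t) 2) = 0 := by
      refine ev_eq_zero (X.avoid K w hw1 hw2 t ht 2 (by norm_num)) ?_
      intro l hl
      by_contra hne
      have := chi_ne_zero hne
      have hl1 := hl.1
      rw [this] at hl1
      exact (Finset.mem_compl.1 (hl1 ht)) ht
    simp only [h1, h0] at hc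
    exact one_ne_zero hc

/-- geometric property of the simplices used: `n` vertices, norm at least `1/2`, mesh `ε` -/
def Fine (n : ℕ) (ε : ℝ) (l : List ℍ[ℝ]) : Prop :=
  l.length = n ∧ (∀ v ∈ l, 1 / 2 ≤ ‖v‖) ∧ ∀ v ∈ l, ∀ w ∈ l, ‖v - w‖ ≤ ε

/-- property of coarse simplices -/
def CoarseOK (n : ℕ) (l : List ℍ[ℝ]) : Prop :=
  l.length = n ∧ (∀ v ∈ l, ‖v‖ = 1) ∧ ∀ v ∈ convexHull ℝ {w | w ∈ l}, 1 / 2 ≤ ‖v‖

theorem Sup_fine {n : ℕ} (hn : n ≤ 4) {c : Ch ℍ[ℝ]} (hc : Sup (CoarseOK n) c) (m : ℕ) (ε : ℝ)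
    (hm : (3 / 4 : ℝ) ^ m * 2 ≤ ε) : Sup (Fine n ε) (SdI n m c) := by
  refine Sup.mono (Sup_SdI_chain n hn m (CoarseOK n) c 2 hc ?_) ?_
  · rintro l ⟨h1, h2, h3⟩
    refine ⟨h1, fun v hv w hw => ?_⟩
    rw [dist_eq_norm]
    calc ‖v - w‖ ≤ ‖v‖ + ‖w‖ := norm_sub_le _ _
      _ = 2 := by rw [h2 v hv, h2 w hw]; norm_num
  · rintro l ⟨h1, ⟨l0, h2, h3⟩, h4⟩
    refine ⟨h1, fun v hv => h2.2.2 v (h3 v hv), fun v hv w hw => ?_⟩
    rw [← dist_eq_norm]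
    exact le_trans (h4 v hv w hw) hm

/-- coarse chains together with their properties -/
structure CoarseData where
  c0 : Ch ℍ[ℝ]
  Ex : Ch ℍ[ℝ]
  Ey : Ch ℍ[ℝ]
  F1 : Ch ℍ[ℝ]
  F2 : Ch ℍ[ℝ]
  G : Ch ℍ[ℝ]
  rel : CoarseRel Xm Ym c0 Ex Ey F1 F2 G
  s0 : Sup (CoarseOK 1) c0
  sx : Sup (CoarseOK 2) Ex
  sy : Sup (CoarseOK 2) Ey
  s1 : Sup (CoarseOK 3) F1
  s2 : Sup (CoarseOK 3) F2
  s3 : Sup (CoarseOK 4) G

/-- subdivided chains -/
noncomputable def CoarseData.ck (E : CoarseData) (m : ℕ) : ℕ → Ch ℍ[ℝ]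
  | 0 => SdI 1 m E.c0
  | 1 => SdI 2 m E.Ex + SdI 2 m E.Ey
  | 2 => SdI 3 m E.F1 + SdI 3 m E.F2
  | _ => SdI 4 m E.G

theorem CoarseData.ck_fine (E : CoarseData) (m : ℕ) (ε : ℝ)
    (hm : (3 / 4 : ℝ) ^ m * 2 ≤ ε) (k : ℕ) (hk : k ≤ 3) : Sup (Fine (k + 1) ε) (E.ck m k) := by
  interval_cases k
  · exact Sup_fine (by norm_num) E.s0 m ε hm
  · exact Sup.add (Sup_fine (by norm_num) E.sx m ε hm) (Sup_fine (by norm_num) E.sy m ε hm)
  · exact Sup.add (Sup_fine (by norm_num) E.s1 m ε hm) (Sup_fine (by norm_num) E.s2 m ε hm)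
  · exact Sup_fine (by norm_num) E.s3 m ε hm

theorem CoarseData.ck_rel0 (E : CoarseData) (m : ℕ) (κ : ℍ[ℝ] → Fin 10) (x : ℍ[ℝ]) :
    bd (mp (fr κ x) (E.ck m 0)) = sg [] := by
  rw [← mp_bd, show bd (E.ck m 0) = sg [] from (E.rel.sub m).b0, mp_sg, List.map_nil]

theorem CoarseData.ck_rel (E : CoarseData) (m : ℕ) {κ : ℍ[ℝ] → Fin 10} {δ : ℝ}
    (h : GoodCol κ δ) (x : ℍ[ℝ]) (k : ℕ) (hk : k < 3) :
    bd (mp (fr κ x) (E.ck m (k + 1))) =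
      mp (fr κ x) (E.ck m k) + mp s12 (mp (fr κ x) (E.ck m k)) := by
  have hX := fr_Xm h.scal x
  have hY := fr_Ym h.scal x
  interval_cases k
  · exact frame_rel1 hX hY (E.rel.sub m)
  · exact frame_rel2 hX hY (E.rel.sub m)
  · exact frame_rel3 hX hY (E.rel.sub m)

/-- construction of the chain data -/
theorem exists_chainData (E : CoarseData) {κ : ℍ[ℝ] → Fin 10} {δ η : ℝ} (h : GoodCol κ δ)
    (hη0 : 0 < η) (hη : η < δ) : Nonempty (ChainData κ η) := by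
  obtain ⟨m, hm⟩ : ∃ m : ℕ, (3 / 4 : ℝ) ^ m * 2 ≤ η / 8 := by
    obtain ⟨m, hm⟩ := exists_pow_lt_of_lt_one (show (0 : ℝ) < η / 16 by positivity)
      (show (3 / 4 : ℝ) < 1 by norm_num)
    exact ⟨m, by linarith⟩
  have fine := E.ck_fine m (η / 8) hm
  refine ⟨{
    D := fun x k => A3 (mp (fr κ x) (E.ck m k))
    b0 := fun x _ => bd_A3_nil _ (E.ck_rel0 m κ x)
    bs := fun x _ k hk => bd_A3_of _ _ (E.ck_rel m h x k hk)
    bs' := fun x _ k hk => bd_A3_of' _ _ (E.ck_rel m h x k hk)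
    sym := fun x _ => by rw [s23_A3_eq]
    adm := ?_
    avoid := ?_
    ρ := η / 2
    ρpos := by positivity
    hom := ?_ }⟩
  · intro x hx k hk
    refine Sup_A3 ?_ ?_
    · rintro l ⟨h1, h2, h3⟩
      exact ⟨by simpa using h1, h2.rot, h3.rot⟩
    · refine Sup.mp (fine k hk) ?_
      rintro l ⟨h1, h2, h3⟩
      exact ⟨by simpa using h1, Dj_frames h (by linarith) hx h2 h3,
        InN_frames (by linarith) hx h2 h3⟩
  · intro T w hw1 hw2 t ht k hk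
    refine Sup_A3 ?_ ?_
    · rintro l ⟨h1, h2, h3⟩
      rw [cs1_rot, cs2_rot, cs3_rot]
      exact ⟨h2, h3, h1⟩
    · refine Sup.mp (fine k hk) ?_
      rintro l ⟨h1, h2, h3⟩
      obtain ⟨a, b, c⟩ := frames_disj h hη ⟨hw1, hw2⟩ ht h2
      exact ⟨Finset.subset_compl_iff_disjoint_right.2 a,
        Finset.subset_compl_iff_disjoint_right.2 b, Finset.subset_compl_iff_disjoint_right.2 c⟩
  · intro x x' hx hx' hxx
    refine ⟨_, _, frame_hom_A3 (fr_Xm h.scal x) (fr_Ym h.scal x) (fr_Xm h.scal x')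
      (fr_Ym h.scal x') (E.rel.sub m), ?_⟩
    have hP : Sup (fun l => l.length = 4 ∧ InN (Nv κ η) l)
        (pr (fr κ x) (fr κ x') (SdI 3 m E.F1 + SdI 3 m E.F2)) := by
      refine Sup.mono (Sup_pr_chain (fr κ x) (fr κ x') _ _ 3 (fine 2 (by norm_num))
        fun l hl => hl.1) ?_
      rintro l ⟨h1, l0, ⟨h2, h3, h4⟩, h5⟩
      have hb : ‖x - x'‖ + 4 * (η / 8) ≤ η := by linarith
      exact ⟨h1, Nv_two_cs1 hx hx' hb h3 h4 h5, Nv_two_cs2 hx hx' hb h3 h4 h5,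
        Nv_two_cs3 hx hx' hb h3 h4 h5⟩
    refine Sup.mono (Sup_A3 (P := fun l => l.length = 4 ∧ InN (Nv κ η) l) ?_ hP) ?_
    · rintro l ⟨h1, h2⟩
      exact ⟨by simpa using h1, h2.rot⟩
    · rintro l ⟨h1, h2⟩
      exact ⟨h1, h2.n1⟩

theorem no_good_of (hsplit : SplitStmt) (hcore : CoreStmt) (E : CoarseData) (κ : ℍ[ℝ] → Fin 10) (δ : ℝ) : ¬ GoodCol κ δ := by
  intro h
  have hδ := h.pos
  obtain ⟨X⟩ := exists_chainData E h (η := δ / 2) (by positivity) (by linarith)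
  exact end_contra hsplit hcore h (by positivity) (by linarith) X

theorem SP_ok {n : ℕ} (hn : n ≤ 4) {l : List ℍ[ℝ]} (h : Coarse.SP n l) : CoarseOK n l :=
  ⟨h.1, h.acute.unit, fun _ hv => Coarse.SP.norm_ge hn h hv⟩

/-- the concrete coarse data -/
noncomputable def coarseData : CoarseData where
  c0 := sg [1]
  Ex := Coarse.Ex (fun v => Xm v) (1 : ℍ[ℝ])
  Ey := Coarse.Ey (fun v => Ym v) (1 : ℍ[ℝ])
  F1 := Coarse.F1 (fun v => Xm v) (fun v => Ym v) (1 : ℍ[ℝ])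
  F2 := Coarse.F2 (fun v => Xm v) (fun v => Ym v) (1 : ℍ[ℝ])
  G := Coarse.G (fun v => Xm v) (fun v => Ym v) (1 : ℍ[ℝ])
  rel := by
    refine ⟨?_, Coarse.bdEx, Coarse.bdEy, Coarse.bdF1, Coarse.bdF2, Coarse.bdG⟩
    rw [bd_cons]; simp
  s0 := by
    refine Sup.sg ⟨rfl, ?_, ?_⟩
    · intro v hv
      simp only [List.mem_cons, List.not_mem_nil, or_false] at hv
      rw [hv, norm_one]
    · intro v hv
      have : {w : ℍ[ℝ] | w ∈ [(1 : ℍ[ℝ])]} = {1} := by ext; simp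
      rw [this, convexHull_singleton, Set.mem_singleton_iff] at hv
      rw [hv, norm_one]; norm_num
  sx := Coarse.Ex_sup.mono fun _ h => SP_ok (by norm_num) h
  sy := Coarse.Ey_sup.mono fun _ h => SP_ok (by norm_num) h
  s1 := Coarse.F1_sup.mono fun _ h => SP_ok (by norm_num) h
  s2 := Coarse.F2_sup.mono fun _ h => SP_ok (by norm_num) h
  s3 := Coarse.G_sup.mono fun _ h => SP_ok (by norm_num) h

theorem no_good (hsplit : SplitStmt) (hcore : CoreStmt) (κ : ℍ[ℝ] → Fin 10) (δ : ℝ) :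
    ¬ GoodCol κ δ := no_good_of hsplit hcore coarseData κ δ

theorem main_theorem (hsplit : SplitStmt) (hcore : CoreStmt) :
    ∃ S : Set (EuclideanSpace ℝ (Fin 9)), Bornology.IsBounded S ∧ S.Nontrivial ∧
      ∀ c : EuclideanSpace ℝ (Fin 9) → Fin 10, ∃ i : Fin 10,
        Metric.diam S ≤ Metric.diam (S ∩ c ⁻¹' {i}) := reduction (no_good hsplit hcore)

end Crest.Agent.R050
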