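import Crest.Agent.R050.Fan

/-!
# The split lemma (rid 50, S0069)

`⟨χ_{024}, D₂⟩ + ⟨χ_{135}, D₂⟩ = 1`.
-/

namespace Crest.Agent.R050

namespace SplitAux

/-- the condition in `alt` -/
def altP (l : List Lab) : Prop :=
  (l.map Prod.fst).Nodup ∧
      ∀ a ∈ l, a.2 = decide ((l.filter (fun b => decide (b.1 < a.1))).length % 2 = 0)

instance (l : List Lab) : Decidable (altP l) := by unfold altP; infer_instance

theorem alt_eq (l : List Lab) : alt l = if altP l then 1 else 0 := by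
  unfold alt altP
  congr 1

theorem altP_perm {l l' : List Lab} (h : l.Perm l') : altP l → altP l' := by
  rintro ⟨h1, h2⟩
  refine ⟨(h.map Prod.fst).nodup_iff.1 h1, fun a ha => ?_⟩
  rw [h2 a (h.mem_iff.2 ha), (h.filter _).length_eq]

theorem altP_map {f : ℕ → ℕ} (hf : StrictMono f) (l : List Lab) :
    altP (l.map (fun a => (f a.1, a.2))) ↔ altP l := by
  unfold altP
  have h1 : (l.map (fun a : Lab => ((f a.1, a.2) : Lab))).map Prod.fst = (l.map Prod.fst).map f := by
    simp [List.map_map, Function.comp_def]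
  rw [h1, List.nodup_map_iff hf.injective]
  refine and_congr Iff.rfl ?_
  simp only [List.mem_map, forall_exists_index, and_imp, forall_apply_eq_imp_iff₂]
  refine forall₂_congr fun a _ => ?_
  have h2 : ((l.map (fun a : Lab => ((f a.1, a.2) : Lab))).filter
      (fun b => decide (b.1 < f a.1))).length = (l.filter (fun b => decide (b.1 < a.1))).length := by
    rw [List.filter_map, List.length_map]
    congr 1
    refine List.filter_congr fun b _ => ?_
    simp [hf.lt_iff_lt]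
  rw [h2]

/-- sorted form -/
theorem altP_sorted (l : List Lab) (hl : l.length = 4) (h : altP l) :
    ∃ w x y z : Lab, [w, x, y, z].Perm l ∧ w.1 < x.1 ∧ x.1 < y.1 ∧ y.1 < z.1 ∧
      w.2 = true ∧ x.2 = false ∧ y.2 = true ∧ z.2 = false := by
  set l' := l.mergeSort (fun a b => decide (a.1 ≤ b.1)) with hl'
  have hp : l'.Perm l := List.mergeSort_perm _ _
  have hs : l'.Pairwise (fun a b => decide (a.1 ≤ b.1) = true) := by
    apply List.pairwise_mergeSort
    · intro a b c; simp only [decide_eq_true_eq]; exact le_trans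
    · intro a b; simp only [Bool.or_eq_true, decide_eq_true_eq]; exact le_total _ _
  have hlen : l'.length = 4 := by rw [hp.length_eq, hl]
  have hP : altP l' := altP_perm hp.symm h
  clear_value l'
  match l', hlen with
  | [w, x, y, z], _ =>
    refine ⟨w, x, y, z, hp, ?_⟩
    obtain ⟨hn, ha⟩ := hP
    simp only [List.pairwise_cons, List.mem_cons, List.not_mem_nil, or_false, forall_eq_or_imp,
      forall_eq, decide_eq_true_eq, List.Pairwise.nil, and_true, IsEmpty.forall_iff,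
      implies_true] at hs
    simp only [List.map_cons, List.map_nil, List.nodup_cons, List.mem_cons, List.not_mem_nil,
      or_false, not_or, not_false_eq_true, List.nodup_nil, and_true] at hn
    have hwx : w.1 < x.1 := by omega
    have hxy : x.1 < y.1 := by omega
    have hyz : y.1 < z.1 := by omega
    have e1 := ha w (by simp)
    have e2 := ha x (by simp)
    have e3 := ha y (by simp)
    have e4 := ha z (by simp)
    have n1 : ¬ (x.1 < w.1) := by omega
    have n2 : ¬ (y.1 < w.1) := by omega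
    have n3 : ¬ (z.1 < w.1) := by omega
    have n4 : ¬ (y.1 < x.1) := by omega
    have n5 : ¬ (z.1 < x.1) := by omega
    have n6 : ¬ (z.1 < y.1) := by omega
    have p1 : w.1 < y.1 := by omega
    have p2 : w.1 < z.1 := by omega
    have p3 : x.1 < z.1 := by omega
    refine ⟨hwx, hxy, hyz, ?_, ?_, ?_, ?_⟩
    · rw [e1]; simp [n1, n2, n3]
    · rw [e2]; simp [hwx, n4, n5]
    · rw [e3]; simp [p1, hxy, n6]
    · rw [e4]; simp [p2, p3, hyz]

/-- the order embedding missing `m` -/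
def em (m : Fin 6) (j : Fin 5) : Fin 6 := m.succAbove j

/-- first, third and fifth element of the complement of `m` -/
def Km (m : Fin 6) : Finset (Fin 6) := {em m 0, em m 2, em m 4}

/-- second and fourth element of the complement of `m` -/
def Gm (m : Fin 6) : Finset (Fin 6) := {em m 1, em m 3}

/-- label of a frame -/
def lab (v : Fr (Fin 6)) : Lab := if v.1 < v.2.1 then (v.1.val, true) else (v.2.1.val, false)

/-- admissible lists -/
def Adm (n : ℕ) (l : List (Fr (Fin 6))) : Prop := l.length = n ∧ Dj l ∧ Sm l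

theorem cs1_s12 (l : List (Fr (Fin 6))) : cs1 (l.map s12) = cs2 l := by
  simp [cs1, cs2, s12, List.map_map, Function.comp_def]

theorem cs2_s12 (l : List (Fr (Fin 6))) : cs2 (l.map s12) = cs1 l := by
  simp [cs1, cs2, s12, List.map_map, Function.comp_def]

theorem cs3_s12 (l : List (Fr (Fin 6))) : cs3 (l.map s12) = cs3 l := by
  simp [cs3, s12, List.map_map, Function.comp_def]

theorem cs1_s23 (l : List (Fr (Fin 6))) : cs1 (l.map s23) = cs1 l := by
  simp [cs1, s23, List.map_map, Function.comp_def]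

theorem cs2_s23 (l : List (Fr (Fin 6))) : cs2 (l.map s23) = cs3 l := by
  simp [cs2, cs3, s23, List.map_map, Function.comp_def]

theorem cs3_s23 (l : List (Fr (Fin 6))) : cs3 (l.map s23) = cs2 l := by
  simp [cs2, cs3, s23, List.map_map, Function.comp_def]

theorem Adm.s12 {n : ℕ} {l : List (Fr (Fin 6))} (h : Adm n l) : Adm n (l.map s12) := by
  obtain ⟨h1, h2, h3⟩ := h
  refine ⟨by simpa using h1, ⟨?_, ?_, ?_⟩, ⟨?_, ?_, ?_⟩⟩
  · rw [cs1_s12, cs2_s12]; exact h2.d12.symm
  · rw [cs1_s12, cs3_s12]; exact h2.d23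
  · rw [cs2_s12, cs3_s12]; exact h2.d13
  · rw [cs1_s12]; exact h3.c2
  · rw [cs2_s12]; exact h3.c1
  · rw [cs3_s12]; exact h3.c3

theorem Adm.s23 {n : ℕ} {l : List (Fr (Fin 6))} (h : Adm n l) : Adm n (l.map s23) := by
  obtain ⟨h1, h2, h3⟩ := h
  refine ⟨by simpa using h1, ⟨?_, ?_, ?_⟩, ⟨?_, ?_, ?_⟩⟩
  · rw [cs1_s23, cs2_s23]; exact h2.d13
  · rw [cs1_s23, cs3_s23]; exact h2.d12
  · rw [cs2_s23, cs3_s23]; exact h2.d23.symm
  · rw [cs1_s23]; exact h3.c1
  · rw [cs2_s23]; exact h3.c3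
  · rw [cs3_s23]; exact h3.c2

theorem mem_cs1' {l : List (Fr (Fin 6))} {v : Fr (Fin 6)} (h : v ∈ l) : v.1 ∈ cs1 l := by
  unfold cs1; rw [List.mem_toFinset]; exact List.mem_map_of_mem h

theorem mem_cs2' {l : List (Fr (Fin 6))} {v : Fr (Fin 6)} (h : v ∈ l) : v.2.1 ∈ cs2 l := by
  unfold cs2; rw [List.mem_toFinset]; exact List.mem_map.2 ⟨v, h, rfl⟩

theorem mem_cs3' {l : List (Fr (Fin 6))} {v : Fr (Fin 6)} (h : v ∈ l) : v.2.2 ∈ cs3 l := by
  unfold cs3; rw [List.mem_toFinset]; exact List.mem_map.2 ⟨v, h, rfl⟩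

theorem Adm.ne {n : ℕ} {l : List (Fr (Fin 6))} (h : Adm n l) {v w : Fr (Fin 6)} (hv : v ∈ l)
    (hw : w ∈ l) : v.1 ≠ w.2.1 ∧ v.1 ≠ w.2.2 ∧ v.2.1 ≠ w.2.2 := by
  refine ⟨fun e => ?_, fun e => ?_, fun e => ?_⟩
  · exact Finset.disjoint_left.1 h.2.1.d12 (mem_cs1' hv) (e ▸ mem_cs2' hw)
  · exact Finset.disjoint_left.1 h.2.1.d13 (mem_cs1' hv) (e ▸ mem_cs3' hw)
  · exact Finset.disjoint_left.1 h.2.1.d23 (mem_cs2' hv) (e ▸ mem_cs3' hw)

theorem fin1 : ∀ m : Fin 6, (Km m).card = 3 ∧ (Gm m).card = 2 := by decide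

theorem fin2 : ∀ m q r : Fin 6, q ∉ Km m → r ∉ Km m → r ∉ Gm m → q ≠ r → q ∈ Gm m := by
  decide

theorem fin3 : ∀ m n : Fin 6, Km m = Km n → Gm m = Gm n → m = n := by decide

theorem fin4 : ∀ a b : Fin 6, a < b → ∀ c : Fin 6, b < c → ∀ d : Fin 6, c < d → ∀ e : Fin 6, d < e →
    ∃ m : Fin 6, Km m = {a, c, e} ∧ Gm m = {b, d} := by
  decide +kernel

/-- an admissible list whose first colours contain `Km m` and second colours contain `Gm m`
lies in the box -/
theorem box_of_sub {n : ℕ} {l : List (Fr (Fin 6))} (h : Adm n l) {m : Fin 6}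
    (h1 : Km m ⊆ cs1 l) (h2 : Gm m ⊆ cs2 l) : ∀ v ∈ l, v.1 ∈ Km m ∧ v.2.1 ∈ Gm m := by
  have e1 : Km m = cs1 l := Finset.eq_of_subset_of_card_le h1 (by
    rw [(fin1 m).1]; exact h.2.2.c1)
  intro v hv
  refine ⟨e1 ▸ mem_cs1' hv, ?_⟩
  refine fin2 m v.2.1 v.2.2 ?_ ?_ ?_ ?_
  · rw [e1]; exact fun hh => Finset.disjoint_left.1 h.2.1.d12 hh (mem_cs2' hv)
  · rw [e1]; exact fun hh => Finset.disjoint_left.1 h.2.1.d13 hh (mem_cs3' hv)
  · exact fun hh => Finset.disjoint_left.1 h.2.1.d23 (h2 hh) (mem_cs3' hv)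
  · exact (h.ne hv hv).2.2

/-- if the labels alternate, the colour sets are those of some `m` -/
theorem exists_m {l : List (Fr (Fin 6))} (h : Adm 4 l) (ha : altP (l.map lab)) :
    ∃ m : Fin 6, cs1 l = Km m ∧ cs2 l = Gm m := by
  obtain ⟨w, x, y, z, hp, hwx, hxy, hyz, sw, sx, sy, sz⟩ :=
    altP_sorted (l.map lab) (by simpa using h.1) ha
  have mem : ∀ a ∈ [w, x, y, z], ∃ v ∈ l, lab v = a := fun a ha =>
    List.mem_map.1 (hp.mem_iff.1 ha)
  have pos : ∀ a ∈ [w, x, y, z], a.2 = true → ∃ v ∈ l, v.1.val = a.1 := by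
    intro a ha hs
    obtain ⟨v, hv, rfl⟩ := mem a ha
    refine ⟨v, hv, ?_⟩
    unfold lab at hs ⊢
    split_ifs with hh
    · rfl
    · rw [if_neg hh] at hs; simp at hs
  have negt : ∀ a ∈ [w, x, y, z], a.2 = false → ∃ v ∈ l, v.2.1.val = a.1 ∧ a.1 < v.1.val := by
    intro a ha hs
    obtain ⟨v, hv, rfl⟩ := mem a ha
    refine ⟨v, hv, ?_⟩
    unfold lab at hs ⊢
    split_ifs with hh
    · rw [if_pos hh] at hs; simp at hs
    · refine ⟨rfl, ?_⟩
      have h1 := (h.ne hv hv).1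
      have h2 : v.2.1 < v.1 := lt_of_le_of_ne (not_lt.1 hh) (Ne.symm h1)
      exact h2
  obtain ⟨vw, hvw, ew⟩ := pos w (by simp) sw
  obtain ⟨vx, hvx, ex, -⟩ := negt x (by simp) sx
  obtain ⟨vy, hvy, ey⟩ := pos y (by simp) sy
  obtain ⟨vz, hvz, ez, ez'⟩ := negt z (by simp) sz
  obtain ⟨m, hm1, hm2⟩ := fin4 vw.1 vx.2.1 (by rw [Fin.lt_def]; omega) vy.1
    (by rw [Fin.lt_def]; omega) vz.2.1 (by rw [Fin.lt_def]; omega) vz.1
    (by rw [Fin.lt_def]; omega)
  have s1 : Km m ⊆ cs1 l := by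
    rw [hm1]
    intro p hp
    simp only [Finset.mem_insert, Finset.mem_singleton] at hp
    rcases hp with rfl | rfl | rfl
    · exact mem_cs1' hvw
    · exact mem_cs1' hvy
    · exact mem_cs1' hvz
  have s2 : Gm m ⊆ cs2 l := by
    rw [hm2]
    intro p hp
    simp only [Finset.mem_insert, Finset.mem_singleton] at hp
    rcases hp with rfl | rfl
    · exact mem_cs2' hvx
    · exact mem_cs2' hvz
  refine ⟨m, ?_, ?_⟩
  · exact (Finset.eq_of_subset_of_card_le s1 (by rw [(fin1 m).1]; exact h.2.2.c1)).symm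
  · refine Finset.Subset.antisymm ?_ s2
    intro q hq
    unfold cs2 at hq
    rw [List.mem_toFinset, List.mem_map] at hq
    obtain ⟨v, hv, rfl⟩ := hq
    exact (box_of_sub h s1 s2 v hv).2

/-- being in the box of `m` -/
def Box (m : Fin 6) (l : List (Fr (Fin 6))) : Prop := ∀ v ∈ l, v.1 ∈ Km m ∧ v.2.1 ∈ Gm m

instance (m : Fin 6) (l : List (Fr (Fin 6))) : Decidable (Box m l) := by
  unfold Box; infer_instance

/-- the part of `alt ∘ lab` in the box of `m` -/
def psi (m : Fin 6) (l : List (Fr (Fin 6))) : ZMod 2 :=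
  if Box m l ∧ altP (l.map lab) then 1 else 0

theorem sum_psi {l : List (Fr (Fin 6))} (h : Adm 4 l) : ∑ m : Fin 6, psi m l = alt (l.map lab) := by
  rw [alt_eq]
  by_cases ha : altP (l.map lab)
  · rw [if_pos ha]
    obtain ⟨m, h1, h2⟩ := exists_m h ha
    have hb : Box m l := fun v hv => ⟨h1 ▸ mem_cs1' hv, h2 ▸ mem_cs2' hv⟩
    rw [Finset.sum_eq_single m]
    · unfold psi; rw [if_pos ⟨hb, ha⟩]
    · intro n _ hn
      unfold psi
      rw [if_neg]
      rintro ⟨hbn, -⟩
      apply hn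
      have k1 : Km m ⊆ Km n := by
        rw [← h1]
        intro p hp
        unfold cs1 at hp
        rw [List.mem_toFinset, List.mem_map] at hp
        obtain ⟨v, hv, rfl⟩ := hp
        exact (hbn v hv).1
      have k2 : Gm m ⊆ Gm n := by
        rw [← h2]
        intro p hp
        unfold cs2 at hp
        rw [List.mem_toFinset, List.mem_map] at hp
        obtain ⟨v, hv, rfl⟩ := hp
        exact (hbn v hv).2
      exact (fin3 m n (Finset.eq_of_subset_of_card_le k1 (by rw [(fin1 m).1, (fin1 n).1]))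
        (Finset.eq_of_subset_of_card_le k2 (by rw [(fin1 m).2, (fin1 n).2]))).symm
    · simp
  · rw [if_neg ha]
    refine Finset.sum_eq_zero fun m _ => ?_
    unfold psi
    rw [if_neg]
    exact fun hh => ha hh.2

/-! ### the finite identity -/

/-- label of a vertex code of the standard model -/
def slab (a : ℕ) : Lab :=
  if 2 * (a / 2) < 2 * (a % 2) + 1 then (2 * (a / 2), true) else (2 * (a % 2) + 1, false)

/-- the table of `eta` -/
def etaTab : List ℕ := [(0*6+2)*6+5, (0*6+4)*6+3, (1*6+2)*6+5, (1*6+4)*6+3, (2*6+0)*6+5,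
  (2*6+1)*6+5, (2*6+4)*6+1, (2*6+5)*6+1, (3*6+4)*6+1, (3*6+5)*6+0, (4*6+0)*6+3, (4*6+1)*6+3,
  (4*6+2)*6+1, (4*6+3)*6+1, (5*6+2)*6+1, (5*6+3)*6+0]

/-- `eta` on codes -/
def etaB (a b c : ℕ) : Bool := etaTab.contains ((a*6+b)*6+c)

/-- the cup product on codes -/
def cupB (a b c d : ℕ) : Bool :=
  (decide (a / 2 ≠ b / 2) && decide (a / 2 ≠ c / 2) && decide (b / 2 ≠ c / 2)) &&
    decide (c % 2 ≠ d % 2)

theorem key : ∀ a : Fin 6, ∀ b : Fin 6, ∀ c : Fin 6, ∀ d : Fin 6,
    (decide (altP [slab a, slab b, slab c, slab d]) ^^ cupB a b c d) =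
      (etaB b c d ^^ etaB a c d ^^ etaB a b d ^^ etaB a b c) := by
  decide +kernel

/-- Boolean to `ZMod 2` -/
def bz (b : Bool) : ZMod 2 := if b then 1 else 0

theorem bz_xor : ∀ a b : Bool, bz (a ^^ b) = bz a + bz b := by decide

/-- code of a vertex -/
def code (m : Fin 6) (v : Fr (Fin 6)) : ℕ :=
  2 * (if v.1 = em m 0 then 0 else if v.1 = em m 2 then 1 else 2) +
    (if v.2.1 = em m 1 then 0 else 1)

/-- the relabelling of `em` on naturals -/
def sh (m : Fin 6) (k : ℕ) : ℕ := if k < m.val then k else k + 1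

theorem sh_mono (m : Fin 6) : StrictMono (sh m) := by
  intro a b hab
  unfold sh
  split_ifs <;> omega

theorem code_fin : ∀ m p q : Fin 6, p ∈ Km m → q ∈ Gm m →
    code m (p, q, 0) < 6 ∧
    (if p < q then (p.val, true) else (q.val, false) : Lab) =
      (sh m (slab (code m (p, q, 0))).1, (slab (code m (p, q, 0))).2) := by
  decide +kernel

theorem code_lt {m : Fin 6} {v : Fr (Fin 6)} (h1 : v.1 ∈ Km m) (h2 : v.2.1 ∈ Gm m) :
    code m v < 6 := (code_fin m v.1 v.2.1 h1 h2).1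

theorem lab_code {m : Fin 6} {v : Fr (Fin 6)} (h1 : v.1 ∈ Km m) (h2 : v.2.1 ∈ Gm m) :
    lab v = (sh m (slab (code m v)).1, (slab (code m v)).2) := (code_fin m v.1 v.2.1 h1 h2).2

theorem altP_code {m : Fin 6} {a b c d : Fr (Fin 6)} (h : Box m [a, b, c, d]) :
    altP ([a, b, c, d].map lab) ↔
      altP [slab (code m a), slab (code m b), slab (code m c), slab (code m d)] := by
  have ha := h a (by simp)
  have hb := h b (by simp)
  have hc := h c (by simp)
  have hd := h d (by simp)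
  have k := altP_map (sh_mono m)
    [slab (code m a), slab (code m b), slab (code m c), slab (code m d)]
  simp only [List.map_cons, List.map_nil] at k ⊢
  rw [lab_code ha.1 ha.2, lab_code hb.1 hb.2, lab_code hc.1 hc.2, lab_code hd.1 hd.2]
  exact k

/-- `eta` for `m` -/
def eta (m : Fin 6) : List (Fr (Fin 6)) → ZMod 2
  | [a, b, c] => if Box m [a, b, c] ∧ etaB (code m a) (code m b) (code m c) = true then 1 else 0
  | _ => 0

/-- the cup product `χ_K ∪ χ_G` -/
def cup (m : Fin 6) (l : List (Fr (Fin 6))) : ZMod 2 :=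
  if cs1 (l.take 3) = Km m ∧ cs2 (l.drop 2) = Gm m then 1 else 0

theorem cs1_three (a b c : Fr (Fin 6)) : cs1 [a, b, c] = {a.1, b.1, c.1} := by
  simp [cs1]

theorem cs2_three (a b c : Fr (Fin 6)) : cs2 [a, b, c] = {a.2.1, b.2.1, c.2.1} := by
  simp [cs2]

theorem cs2_two (c d : Fr (Fin 6)) : cs2 [c, d] = {c.2.1, d.2.1} := by
  simp [cs2]

theorem cs3_two (c d : Fr (Fin 6)) : cs3 [c, d] = {c.2.2, d.2.2} := by
  simp [cs3]

theorem three_code : ∀ m p : Fin 6, p ∈ Km m → ∀ p' : Fin 6, p' ∈ Km m → ∀ p'' : Fin 6,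
    p'' ∈ Km m →
    (({p, p', p''} : Finset (Fin 6)) = Km m ↔
      ((if p = em m 0 then 0 else if p = em m 2 then 1 else 2) ≠
          (if p' = em m 0 then 0 else if p' = em m 2 then 1 else 2) ∧
        (if p = em m 0 then 0 else if p = em m 2 then 1 else 2) ≠
          (if p'' = em m 0 then 0 else if p'' = em m 2 then 1 else 2) ∧
        (if p' = em m 0 then 0 else if p' = em m 2 then 1 else 2) ≠
          (if p'' = em m 0 then 0 else if p'' = em m 2 then 1 else 2))) := by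
  decide +kernel

theorem two_code : ∀ m q : Fin 6, q ∈ Gm m → ∀ q' : Fin 6, q' ∈ Gm m →
    (({q, q'} : Finset (Fin 6)) = Gm m ↔
      (if q = em m 1 then 0 else 1) ≠ (if q' = em m 1 then 0 else 1)) := by
  decide +kernel

theorem code_div (m : Fin 6) (v : Fr (Fin 6)) :
    code m v / 2 = (if v.1 = em m 0 then 0 else if v.1 = em m 2 then 1 else 2) := by
  unfold code
  split_ifs <;> omega

theorem code_mod (m : Fin 6) (v : Fr (Fin 6)) :
    code m v % 2 = (if v.2.1 = em m 1 then 0 else 1) := by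
  unfold code
  split_ifs <;> omega

theorem cup_code {m : Fin 6} {a b c d : Fr (Fin 6)} (h : Box m [a, b, c, d]) :
    cup m [a, b, c, d] = bz (cupB (code m a) (code m b) (code m c) (code m d)) := by
  have ha := h a (by simp)
  have hb := h b (by simp)
  have hc := h c (by simp)
  have hd := h d (by simp)
  have h1 : cs1 [a, b, c] = Km m ↔ (code m a / 2 ≠ code m b / 2 ∧ code m a / 2 ≠ code m c / 2 ∧
      code m b / 2 ≠ code m c / 2) := by
    rw [cs1_three, three_code m a.1 ha.1 b.1 hb.1 c.1 hc.1, code_div, code_div, code_div]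
  have h2 : cs2 [c, d] = Gm m ↔ code m c % 2 ≠ code m d % 2 := by
    rw [cs2_two, two_code m c.2.1 hc.2 d.2.1 hd.2, code_mod, code_mod]
  unfold cup bz cupB
  simp only [List.take_succ_cons, List.take_zero, List.drop_succ_cons, List.drop_zero, h1, h2]
  congr 1
  simp only [Bool.and_eq_true, decide_eq_true_eq, eq_iff_iff]
  tauto

/-- a triple in the support of `eta` is full -/
theorem eta_full_fin : ∀ a b c : Fin 6, etaB a b c = true →
    ((a : ℕ) / 2 ≠ b / 2 ∧ (a : ℕ) / 2 ≠ c / 2 ∧ (b : ℕ) / 2 ≠ c / 2) ∧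
    ((a : ℕ) % 2 ≠ b % 2 ∨ (a : ℕ) % 2 ≠ c % 2) := by
  decide +kernel

theorem eta_full {m : Fin 6} {a b c : Fr (Fin 6)} (h : eta m [a, b, c] ≠ 0) :
    Box m [a, b, c] ∧ Km m ⊆ cs1 [a, b, c] ∧ Gm m ⊆ cs2 [a, b, c] := by
  have h' : Box m [a, b, c] ∧ etaB (code m a) (code m b) (code m c) = true := by
    by_contra hcon
    exact h (if_neg hcon)
  obtain ⟨hb, he⟩ := h'
  have ha := hb a (by simp)
  have hb' := hb b (by simp)
  have hc := hb c (by simp)
  have hf := eta_full_fin ⟨_, code_lt ha.1 ha.2⟩ ⟨_, code_lt hb'.1 hb'.2⟩ ⟨_, code_lt hc.1 hc.2⟩ he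
  simp only [code_div, code_mod] at hf
  refine ⟨hb, ?_, ?_⟩
  · rw [cs1_three, (three_code m a.1 ha.1 b.1 hb'.1 c.1 hc.1).2 hf.1]
  · rw [cs2_three]
    rcases hf.2 with h2 | h2
    · rw [← (two_code m a.2.1 ha.2 b.2.1 hb'.2).2 h2]
      intro q hq
      simp only [Finset.mem_insert, Finset.mem_singleton] at hq ⊢
      tauto
    · rw [← (two_code m a.2.1 ha.2 c.2.1 hc.2).2 h2]
      intro q hq
      simp only [Finset.mem_insert, Finset.mem_singleton] at hq ⊢
      tauto

theorem cs1_mono {l l' : List (Fr (Fin 6))} (h : ∀ v ∈ l, v ∈ l') : cs1 l ⊆ cs1 l' := by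
  intro p hp
  unfold cs1 at hp
  rw [List.mem_toFinset, List.mem_map] at hp
  obtain ⟨v, hv, rfl⟩ := hp
  exact mem_cs1' (h v hv)

theorem cs2_mono {l l' : List (Fr (Fin 6))} (h : ∀ v ∈ l, v ∈ l') : cs2 l ⊆ cs2 l' := by
  intro p hp
  unfold cs2 at hp
  rw [List.mem_toFinset, List.mem_map] at hp
  obtain ⟨v, hv, rfl⟩ := hp
  exact mem_cs2' (h v hv)

/-- coboundary on lists of length four -/
theorem cob_four (ψ : List (Fr (Fin 6)) → ZMod 2) (a b c d : Fr (Fin 6)) :
    cob ψ [a, b, c, d] = ψ [b, c, d] + ψ [a, c, d] + ψ [a, b, d] + ψ [a, b, c] := by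
  unfold cob
  simp only [bd_cons, bd_nil, map_add, cone_sg, map_zero, lin_sg, add_zero]
  abel

/-- **the key identity** `psi + cup = cob eta` on admissible lists -/
theorem psi_add_cup {m : Fin 6} {l : List (Fr (Fin 6))} (h : Adm 4 l) :
    psi m l + cup m l = cob (eta m) l := by
  obtain ⟨a, b, c, d, rfl⟩ : ∃ a b c d, l = [a, b, c, d] := by
    match l, h.1 with
    | [a, b, c, d], _ => exact ⟨a, b, c, d, rfl⟩
  rw [cob_four]
  by_cases hb : Box m [a, b, c, d]
  · have ha := hb a (by simp)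
    have hb' := hb b (by simp)
    have hc := hb c (by simp)
    have hd := hb d (by simp)
    have e0 : psi m [a, b, c, d] =
        bz (decide (altP [slab (code m a), slab (code m b), slab (code m c), slab (code m d)])) := by
      unfold psi bz
      simp only [hb, true_and, decide_eq_true_eq, altP_code hb]
    have e : ∀ x y z : Fr (Fin 6), Box m [x, y, z] →
        eta m [x, y, z] = bz (etaB (code m x) (code m y) (code m z)) := by
      intro x y z hx
      unfold eta bz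
      simp only [hx, true_and]
    have b1 : ∀ x y z : Fr (Fin 6), x ∈ [a, b, c, d] → y ∈ [a, b, c, d] → z ∈ [a, b, c, d] →
        Box m [x, y, z] := by
      intro x y z hx hy hz v hv
      simp only [List.mem_cons, List.not_mem_nil, or_false] at hv
      rcases hv with rfl | rfl | rfl
      · exact hb _ hx
      · exact hb _ hy
      · exact hb _ hz
    rw [e0, cup_code hb, e b c d (b1 _ _ _ (by simp) (by simp) (by simp)),
      e a c d (b1 _ _ _ (by simp) (by simp) (by simp)),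
      e a b d (b1 _ _ _ (by simp) (by simp) (by simp)),
      e a b c (b1 _ _ _ (by simp) (by simp) (by simp)), ← bz_xor, ← bz_xor, ← bz_xor, ← bz_xor]
    congr 1
    have k := key ⟨_, code_lt ha.1 ha.2⟩ ⟨_, code_lt hb'.1 hb'.2⟩ ⟨_, code_lt hc.1 hc.2⟩
      ⟨_, code_lt hd.1 hd.2⟩
    exact k
  · have z : ∀ x y z : Fr (Fin 6), x ∈ [a, b, c, d] → y ∈ [a, b, c, d] → z ∈ [a, b, c, d] →
        eta m [x, y, z] = 0 := by
      intro x y z hx hy hz
      by_contra hne
      obtain ⟨-, f1, f2⟩ := eta_full hne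
      have hsub : ∀ v ∈ [x, y, z], v ∈ [a, b, c, d] := by
        intro v hv
        simp only [List.mem_cons, List.not_mem_nil, or_false] at hv
        rcases hv with rfl | rfl | rfl
        · exact hx
        · exact hy
        · exact hz
      exact hb (box_of_sub h (f1.trans (cs1_mono hsub)) (f2.trans (cs2_mono hsub)))
    rw [z b c d (by simp) (by simp) (by simp), z a c d (by simp) (by simp) (by simp),
      z a b d (by simp) (by simp) (by simp), z a b c (by simp) (by simp) (by simp)]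
    have e1 : psi m [a, b, c, d] = 0 := by
      unfold psi; rw [if_neg]; exact fun hh => hb hh.1
    have e2 : cup m [a, b, c, d] = 0 := by
      unfold cup; rw [if_neg]
      rintro ⟨h1, h2⟩
      simp only [List.take_succ_cons, List.take_zero, List.drop_succ_cons, List.drop_zero] at h1 h2
      apply hb
      refine box_of_sub h ?_ ?_
      · rw [← h1]; exact cs1_mono (by intro v hv; simp at hv ⊢; tauto)
      · rw [← h2]; exact cs2_mono (by intro v hv; simp at hv ⊢; tauto)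
    rw [e1, e2]; simp

/-! ### the cup product with `s` -/

/-- the element `g` -/
def gm (m : Fin 6) : Fin 6 := em m 1
/-- the element `h` -/
def hm (m : Fin 6) : Fin 6 := em m 3

/-- the order function -/
def so (m : Fin 6) (v : Fr (Fin 6)) : ZMod 2 := if v.2.1 = gm m ∨ v.2.2 = hm m then 1 else 0

/-- `χ_K ∪ s` -/
def chs (m : Fin 6) : List (Fr (Fin 6)) → ZMod 2
  | [a, b, c] => if cs1 [a, b, c] = Km m then so m c else 0
  | _ => 0

theorem so_fin : ∀ m q : Fin 6, q ∉ Km m → ∀ r : Fin 6, r ∉ Km m → q ≠ r →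
    (decide (q = gm m ∨ r = hm m) ^^ decide (r = gm m ∨ q = hm m)) = true := by
  decide +kernel

theorem so_fin2 : ∀ m q : Fin 6, q ∉ Km m → ∀ r : Fin 6, r ∉ Km m → q ≠ r →
    ∀ q' : Fin 6, q' ∉ Km m → q' ≠ r → ∀ r' : Fin 6, r' ∉ Km m → q ≠ r' → q' ≠ r' →
    (decide (({q, q'} : Finset (Fin 6)) = Gm m) ^^ decide (({r, r'} : Finset (Fin 6)) = Gm m)) =
      (decide (q = gm m ∨ r = hm m) ^^ decide (q' = gm m ∨ r' = hm m)) := by
  decide +kernel

theorem so_bz (m : Fin 6) (v : Fr (Fin 6)) :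
    so m v = bz (decide (v.2.1 = gm m ∨ v.2.2 = hm m)) := by
  unfold so bz
  simp only [decide_eq_true_eq]

theorem par_fin : ∀ m p : Fin 6, p ∈ Km m → ∀ p' : Fin 6, p' ∈ Km m → ∀ p'' : Fin 6, p'' ∈ Km m →
    ∀ p3 : Fin 6, p3 ∈ Km m →
    (decide (({p', p'', p3} : Finset (Fin 6)) = Km m) ^^
      decide (({p, p'', p3} : Finset (Fin 6)) = Km m) ^^
      decide (({p, p', p3} : Finset (Fin 6)) = Km m)) =
      decide (({p, p', p''} : Finset (Fin 6)) = Km m) := by
  decide +kernel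

theorem par {m : Fin 6} {a b c d : Fr (Fin 6)} (h : Adm 4 [a, b, c, d]) :
    bz (decide (cs1 [b, c, d] = Km m)) + bz (decide (cs1 [a, c, d] = Km m)) +
      bz (decide (cs1 [a, b, d] = Km m)) = bz (decide (cs1 [a, b, c] = Km m)) := by
  by_cases hs : Km m ⊆ cs1 [a, b, c, d]
  · have e1 : Km m = cs1 [a, b, c, d] := Finset.eq_of_subset_of_card_le hs (by
      rw [(fin1 m).1]; exact h.2.2.c1)
    rw [← bz_xor, ← bz_xor]
    congr 1
    simp only [cs1_three]
    exact par_fin m a.1 (e1 ▸ mem_cs1' (by simp)) b.1 (e1 ▸ mem_cs1' (by simp)) c.1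
      (e1 ▸ mem_cs1' (by simp)) d.1 (e1 ▸ mem_cs1' (by simp))
  · have z : ∀ x y z : Fr (Fin 6), x ∈ [a, b, c, d] → y ∈ [a, b, c, d] → z ∈ [a, b, c, d] →
        bz (decide (cs1 [x, y, z] = Km m)) = 0 := by
      intro x y z hx hy hz
      have : ¬ (cs1 [x, y, z] = Km m) := by
        intro he
        apply hs
        rw [← he]
        apply cs1_mono
        intro v hv
        simp only [List.mem_cons, List.not_mem_nil, or_false] at hv
        rcases hv with rfl | rfl | rfl
        · exact hx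
        · exact hy
        · exact hz
      simp [bz, this]
    rw [z b c d (by simp) (by simp) (by simp), z a c d (by simp) (by simp) (by simp),
      z a b d (by simp) (by simp) (by simp), z a b c (by simp) (by simp) (by simp)]
    simp

theorem chs_three (m : Fin 6) (a b c : Fr (Fin 6)) :
    chs m [a, b, c] = bz (decide (cs1 [a, b, c] = Km m)) * so m c := by
  unfold chs bz
  by_cases h : cs1 [a, b, c] = Km m <;> simp [h]

theorem not_mem_Km {n : ℕ} {l : List (Fr (Fin 6))} (h : Adm n l) {m : Fin 6}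
    (he : Km m ⊆ cs1 l) {v : Fr (Fin 6)} (hv : v ∈ l) : v.2.1 ∉ Km m ∧ v.2.2 ∉ Km m :=
  ⟨fun hh => Finset.disjoint_left.1 h.2.1.d12 (he hh) (mem_cs2' hv),
    fun hh => Finset.disjoint_left.1 h.2.1.d13 (he hh) (mem_cs3' hv)⟩

/-- `χ_K ∪ (χ_G² + χ_G³) = cob (χ_K ∪ s)` on admissible lists -/
theorem cup_add_cup {m : Fin 6} {l : List (Fr (Fin 6))} (h : Adm 4 l) :
    cup m l + cup m (l.map s23) = cob (chs m) l := by
  obtain ⟨a, b, c, d, rfl⟩ : ∃ a b c d, l = [a, b, c, d] := by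
    match l, h.1 with
    | [a, b, c, d], _ => exact ⟨a, b, c, d, rfl⟩
  rw [cob_four, chs_three, chs_three, chs_three, chs_three, ← add_mul, ← add_mul, par h, ← mul_add]
  have e1 : cup m [a, b, c, d] =
      bz (decide (cs1 [a, b, c] = Km m)) * bz (decide (({c.2.1, d.2.1} : Finset (Fin 6)) = Gm m)) := by
    unfold cup bz
    simp only [List.take_succ_cons, List.take_zero, List.drop_succ_cons, List.drop_zero, cs2_two]
    by_cases h1 : cs1 [a, b, c] = Km m <;> simp [h1]
  have e2 : cup m ([a, b, c, d].map s23) =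
      bz (decide (cs1 [a, b, c] = Km m)) * bz (decide (({c.2.2, d.2.2} : Finset (Fin 6)) = Gm m)) := by
    unfold cup bz
    simp only [List.map_cons, List.map_nil, List.take_succ_cons, List.take_zero,
      List.drop_succ_cons, List.drop_zero, cs2_two]
    have e3 : cs1 [s23 a, s23 b, s23 c] = cs1 [a, b, c] := cs1_s23 [a, b, c]
    have e4 : (s23 c).2.1 = c.2.2 := rfl
    have e5 : (s23 d).2.1 = d.2.2 := rfl
    rw [e3, e4, e5]
    by_cases h1 : cs1 [a, b, c] = Km m <;> simp [h1]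
  rw [e1, e2, ← mul_add]
  by_cases hK : cs1 [a, b, c] = Km m
  · congr 1
    have hsub : Km m ⊆ cs1 [a, b, c, d] := by
      rw [← hK]; exact cs1_mono (by intro v hv; simp at hv ⊢; tauto)
    have hc := not_mem_Km h hsub (v := c) (by simp)
    have hd := not_mem_Km h hsub (v := d) (by simp)
    have k1 := (h.ne (v := c) (w := c) (by simp) (by simp)).2.2
    have k2 := (h.ne (v := c) (w := d) (by simp) (by simp)).2.2
    have k3 := (h.ne (v := d) (w := c) (by simp) (by simp)).2.2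
    have k4 := (h.ne (v := d) (w := d) (by simp) (by simp)).2.2
    rw [so_bz, so_bz, ← bz_xor, ← bz_xor]
    congr 1
    rw [so_fin2 m c.2.1 hc.1 c.2.2 hc.2 k1 d.2.1 hd.1 k3 d.2.2 hd.2 k2 k4, Bool.xor_comm]
  · simp [hK, bz]

theorem chs_add_chs {m : Fin 6} {l : List (Fr (Fin 6))} (h : Adm 3 l) :
    chs m l + chs m (l.map s23) = chi (Km m) l := by
  obtain ⟨a, b, c, rfl⟩ : ∃ a b c, l = [a, b, c] := by
    match l, h.1 with
    | [a, b, c], _ => exact ⟨a, b, c, rfl⟩
  simp only [List.map_cons, List.map_nil]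
  rw [chs_three, chs_three]
  have e3 : cs1 [s23 a, s23 b, s23 c] = cs1 [a, b, c] := cs1_s23 [a, b, c]
  rw [e3, ← mul_add]
  unfold chi
  by_cases hK : cs1 [a, b, c] = Km m
  · have hc := not_mem_Km h (m := m) (by rw [hK]) (v := c) (by simp)
    have k1 := (h.ne (v := c) (w := c) (by simp) (by simp)).2.2
    have hcard : (Km m).card = 3 := (fin1 m).1
    rw [so_bz, so_bz, ← bz_xor]
    have := so_fin m c.2.1 hc.1 c.2.2 hc.2 k1
    have e4 : (s23 c).2.1 = c.2.2 := rfl
    have e5 : (s23 c).2.2 = c.2.1 := rfl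
    rw [e4, e5, this]
    simp [hK, bz, hcard]
  · simp [hK, bz]

/-! ### assembly -/

theorem ev_sum {α ι : Type*} (s : Finset ι) (ψ : ι → List α → ZMod 2) (c : Ch α) :
    ev (fun l => ∑ i ∈ s, ψ i l) c = ∑ i ∈ s, ev (ψ i) c := by
  classical
  induction s using Finset.induction_on with
  | empty => simp [ev_eq_zero (P := fun _ => True) (c := c) (fun _ _ => trivial)]
  | insert a s ha ih =>
    have e : (fun l => ∑ i ∈ insert a s, ψ i l) = fun l => ψ a l + ∑ i ∈ s, ψ i l := by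
      funext l
      rw [Finset.sum_insert ha]
    rw [Finset.sum_insert ha, ← ih, ← ev_add_left, e]

theorem mp_s12_s12 (c : Ch (Fr (Fin 6))) : mp s12 (mp s12 c) = c := by
  rw [mp_mp]
  have : (s12 ∘ s12 : Fr (Fin 6) → Fr (Fin 6)) = fun a => a := by
    funext v; rfl
  rw [this, mp_id]

/-- one term -/
theorem one_term (D2 D3 : Ch (Fr (Fin 6))) (h3 : bd D3 = D2 + mp s12 D2)
    (h3' : bd D3 = D2 + mp s23 D2) (hs : D3 + mp s12 D3 = D3 + mp s23 D3)
    (a2 : Sup (Adm 3) D2) (a3 : Sup (Adm 4) D3) (m : Fin 6) :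
    ev (psi m) (D3 + mp s12 D3) = ev (chi (Km m)) D2 := by
  have aZ : Sup (Adm 4) (D3 + mp s12 D3) := Sup.add a3 (Sup.mp a3 fun l hl => hl.s12)
  have hZ : bd (D3 + mp s12 D3) = 0 := by
    rw [map_add, ← mp_bd, h3, map_add, mp_s12_s12]
    have := two_self (D2 + mp s12 D2)
    rw [add_comm (mp s12 D2) D2]
    exact this
  have e1 : ev (psi m) (D3 + mp s12 D3) = ev (cup m) (D3 + mp s12 D3) := by
    have k : ev (fun l => psi m l + cup m l) (D3 + mp s12 D3) = 0 := by
      rw [ev_congr aZ (ψ' := cob (eta m)) (fun l hl => psi_add_cup hl), ← ev_bd, hZ, map_zero]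
    rw [ev_add_left] at k
    have := two_self (ev (cup m) (D3 + mp s12 D3))
    have k2 := congrArg (fun x => x + ev (cup m) (D3 + mp s12 D3)) k
    simp only [add_assoc, this, add_zero, zero_add] at k2
    exact k2
  rw [e1, hs, map_add, ev_mp, ← ev_add_left, ev_congr a3 (ψ' := cob (chs m))
    (fun l hl => cup_add_cup hl), ← ev_bd, h3', map_add, ev_mp, ← ev_add_left,
    ev_congr a2 (ψ' := chi (Km m)) (fun l hl => chs_add_chs hl)]

theorem lab_s12 {n : ℕ} {l : List (Fr (Fin 6))} (h : Adm n l) {v : Fr (Fin 6)} (hv : v ∈ l) :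
    lab (s12 v) = lneg (lab v) := by
  have h1 := (h.ne hv hv).1
  unfold lab s12 lneg
  rcases lt_or_gt_of_ne h1 with h2 | h2
  · simp only
    rw [if_neg (not_lt.2 h2.le), if_pos h2]; rfl
  · simp only
    rw [if_pos h2, if_neg (not_lt.2 h2.le)]; rfl

theorem lab_ne {n : ℕ} {l : List (Fr (Fin 6))} (h : Adm n l) {v w : Fr (Fin 6)} (hv : v ∈ l)
    (hw : w ∈ l) : lab v ≠ lneg (lab w) := by
  have h1 := (h.ne hv hw).1
  have h2 := (h.ne hw hv).1
  unfold lab lneg
  intro e
  split_ifs at e with k1 k2 k2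
  · simp at e
  · have := (Prod.mk.inj e).1
    exact h1 (Fin.ext this)
  · have := (Prod.mk.inj e).1
    exact h2 (Fin.ext this.symm)
  · simp at e

end SplitAux

open SplitAux

/-- The split lemma, with the Fan identity as a hypothesis. -/
theorem split_of_fan
    (fan : ∀ (l : List Lab), (∀ a ∈ l, lneg a ∉ l) → l.length ≤ 4 →
      ev alt (bd (sg l)) = alt l + alt (l.map lneg))
    (D0 D1 D2 D3 : Ch (Fr (Fin 6))) (h0 : bd D0 = sg []) (h1 : bd D1 = D0 + mp s12 D0)
    (h2 : bd D2 = D1 + mp s12 D1) (h3 : bd D3 = D2 + mp s12 D2) (h3' : bd D3 = D2 + mp s23 D2)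
    (hs : D3 + mp s12 D3 = D3 + mp s23 D3)
    (a0 : Sup (fun l => l.length = 1 ∧ Dj l ∧ Sm l) D0)
    (a1 : Sup (fun l => l.length = 2 ∧ Dj l ∧ Sm l) D1)
    (a2 : Sup (fun l => l.length = 3 ∧ Dj l ∧ Sm l) D2)
    (a3 : Sup (fun l => l.length = 4 ∧ Dj l ∧ Sm l) D3) :
    ev (chi {0, 2, 4}) D2 + ev (chi {1, 3, 5}) D2 = 1 := by
  have step : ∀ (n : ℕ) (C : Ch (Fr (Fin 6))), n ≤ 4 → Sup (Adm n) C →
      ev alt (mp lab (bd C)) = ev alt (mp lab (C + mp s12 C)) := by
    intro n C hn aC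
    rw [mp_bd, ev_bd, ev_mp, map_add, map_add, ev_mp, mp_mp, ev_mp, ← ev_add_left]
    refine ev_congr aC fun l hl => ?_
    have e := fan (l.map lab) (by
      intro x hx hx'
      obtain ⟨v, hv, rfl⟩ := List.mem_map.1 hx
      obtain ⟨w, hw, e⟩ := List.mem_map.1 hx'
      exact lab_ne hl hw hv e) (by rw [List.length_map, hl.1]; exact hn)
    unfold cob
    rw [e]
    congr 2
    rw [List.map_map]
    refine List.map_congr_left fun v hv => ?_
    exact (lab_s12 hl hv).symm
  have s0 := step 1 D0 (by norm_num) a0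
  have s1 := step 2 D1 (by norm_num) a1
  have s2 := step 3 D2 (by norm_num) a2
  have s3 := step 4 D3 (by norm_num) a3
  rw [h0] at s0
  rw [h1] at s1
  rw [h2] at s2
  rw [h3] at s3
  have base : ev alt (mp lab (sg [])) = 1 := by
    rw [mp_sg, lin_sg]
    simp [alt]
  have total : ev alt (mp lab (D3 + mp s12 D3)) = 1 := by
    rw [← s3, ← s2, ← s1, ← s0, base]
  have aZ : Sup (Adm 4) (D3 + mp s12 D3) := Sup.add a3 (Sup.mp a3 fun l hl => Adm.s12 hl)
  rw [ev_mp, ← ev_congr aZ (ψ := fun l => ∑ m : Fin 6, psi m l) (fun l hl => sum_psi hl),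
    ev_sum, Finset.sum_congr rfl (fun m _ => one_term D2 D3 h3 h3' hs a2 a3 m),
    Fin.sum_univ_six] at total
  have k0 : Km 0 = {1, 3, 5} := by decide
  have k1 : Km 1 = Km 2 := by decide
  have k3 : Km 3 = Km 4 := by decide
  have k5 : Km 5 = {0, 2, 4} := by decide
  rw [k0, k1, k3, k5] at total
  have t1 := two_self (ev (chi (Km 2)) D2)
  have t2 := two_self (ev (chi (Km 4)) D2)
  rw [add_comm, ← total, add_assoc (ev (chi {1, 3, 5}) D2), t1, add_zero,
    add_assoc (ev (chi {1, 3, 5}) D2), t2, add_zero]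

/-- **Split lemma.** -/
theorem split (D0 D1 D2 D3 : Ch (Fr (Fin 6))) (h0 : bd D0 = sg [])
    (h1 : bd D1 = D0 + mp s12 D0)
    (h2 : bd D2 = D1 + mp s12 D1) (h3 : bd D3 = D2 + mp s12 D2) (h3' : bd D3 = D2 + mp s23 D2)
    (hs : D3 + mp s12 D3 = D3 + mp s23 D3)
    (a0 : Sup (fun l => l.length = 1 ∧ Dj l ∧ Sm l) D0)
    (a1 : Sup (fun l => l.length = 2 ∧ Dj l ∧ Sm l) D1)
    (a2 : Sup (fun l => l.length = 3 ∧ Dj l ∧ Sm l) D2)
    (a3 : Sup (fun l => l.length = 4 ∧ Dj l ∧ Sm l) D3) :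
    ev (chi {0, 2, 4}) D2 + ev (chi {1, 3, 5}) D2 = 1 :=
  split_of_fan fan D0 D1 D2 D3 h0 h1 h2 h3 h3' hs a0 a1 a2 a3

end Crest.Agent.R050
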