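import Crest.Agent.R050.Defs
import Crest.Agent.R050.Split

/-!
# Transfer of the split lemma from `Fin 6` to the complement of a 4-set in `Fin 10`
-/

namespace Crest.Agent.R050

/-- apply a map of colours to a frame of colours -/
def frm {C C' : Type*} (g : C → C') (v : Fr C) : Fr C' := (g v.1, g v.2.1, g v.2.2)

theorem frm_s12 {C C' : Type*} (g : C → C') : frm g ∘ s12 = s12 ∘ frm g := rfl
theorem frm_s23 {C C' : Type*} (g : C → C') : frm g ∘ s23 = s23 ∘ frm g := rfl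

section
variable {C C' : Type*} [DecidableEq C] [DecidableEq C']

theorem cs1_frm (g : C → C') (l : List (Fr C)) : cs1 (l.map (frm g)) = (cs1 l).image g := by
  ext a; simp [cs1, frm]

theorem cs2_frm (g : C → C') (l : List (Fr C)) : cs2 (l.map (frm g)) = (cs2 l).image g := by
  ext a
  simp only [cs2, List.mem_toFinset, List.mem_map, Finset.mem_image, frm]
  constructor
  · rintro ⟨b, ⟨v, hv, rfl⟩, rfl⟩
    exact ⟨_, ⟨v, hv, rfl⟩, rfl⟩
  · rintro ⟨b, ⟨v, hv, rfl⟩, rfl⟩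
    exact ⟨_, ⟨v, hv, rfl⟩, rfl⟩

theorem cs3_frm (g : C → C') (l : List (Fr C)) : cs3 (l.map (frm g)) = (cs3 l).image g := by
  ext a
  simp only [cs3, List.mem_toFinset, List.mem_map, Finset.mem_image, frm]
  constructor
  · rintro ⟨b, ⟨v, hv, rfl⟩, rfl⟩
    exact ⟨_, ⟨v, hv, rfl⟩, rfl⟩
  · rintro ⟨b, ⟨v, hv, rfl⟩, rfl⟩
    exact ⟨_, ⟨v, hv, rfl⟩, rfl⟩

omit [DecidableEq C] in
theorem disj_image {g : C → C'} {U s t : Finset C} (hg : Set.InjOn g U) (hs : s ⊆ U) (ht : t ⊆ U)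
    (h : Disjoint s t) : Disjoint (s.image g) (t.image g) := by
  rw [Finset.disjoint_left]
  intro a ha hb
  obtain ⟨x, hx, hxa⟩ := Finset.mem_image.1 ha
  obtain ⟨y, hy, hya⟩ := Finset.mem_image.1 hb
  have : x = y := hg (hs hx) (ht hy) (hxa.trans hya.symm)
  subst this
  exact (Finset.disjoint_left.1 h) hx hy

theorem sup_frm {g : C → C'} {U : Finset C} (hg : Set.InjOn g U) {n : ℕ} {D : Ch (Fr C)}
    (a : Sup (fun l => l.length = n ∧ Dj l ∧ Sm l ∧ cs1 l ⊆ U ∧ cs2 l ⊆ U ∧ cs3 l ⊆ U) D) :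
    Sup (fun l => l.length = n ∧ Dj l ∧ Sm l) (mp (frm g) D) := by
  refine Sup.mp a ?_
  rintro l ⟨h1, h2, h3, h4, h5, h6⟩
  refine ⟨by simpa using h1, ⟨?_, ?_, ?_⟩, ⟨?_, ?_, ?_⟩⟩
  · rw [cs1_frm, cs2_frm]; exact disj_image hg h4 h5 h2.d12
  · rw [cs1_frm, cs3_frm]; exact disj_image hg h4 h6 h2.d13
  · rw [cs2_frm, cs3_frm]; exact disj_image hg h5 h6 h2.d23
  · rw [cs1_frm]; exact Finset.card_image_le.trans h3.c1
  · rw [cs2_frm]; exact Finset.card_image_le.trans h3.c2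
  · rw [cs3_frm]; exact Finset.card_image_le.trans h3.c3

theorem chi_frm {g : C → C'} {U K : Finset C} (hg : Set.InjOn g U) (hK : K ⊆ U) {l : List (Fr C)}
    (hl : cs1 l ⊆ U) : chi (K.image g) (l.map (frm g)) = chi K l := by
  have hc : (K.image g).card = K.card := Finset.card_image_of_injOn (hg.mono (by exact_mod_cast hK))
  have he : cs1 (l.map (frm g)) = K.image g ↔ cs1 l = K := by
    rw [cs1_frm]
    constructor
    · intro h
      ext a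
      constructor
      · intro ha
        have : g a ∈ K.image g := by rw [← h]; exact Finset.mem_image_of_mem g ha
        obtain ⟨b, hb, hba⟩ := Finset.mem_image.1 this
        have : b = a := hg (hK hb) (hl ha) hba
        rwa [← this]
      · intro ha
        have : g a ∈ (cs1 l).image g := by rw [h]; exact Finset.mem_image_of_mem g ha
        obtain ⟨b, hb, hba⟩ := Finset.mem_image.1 this
        have : b = a := hg (hl hb) (hK ha) hba
        rwa [← this]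
    · intro h; rw [h]
  unfold chi
  rw [hc, List.length_map, if_congr (and_congr Iff.rfl he) rfl rfl]

end

/-- a colour map which is injective on `Tᶜ`, sending `K` onto `{0,2,4}` and the rest of `Tᶜ` onto
`{1,3,5}` -/
theorem exists_recolor (T K : Finset (Fin 10)) (hT : T.card = 4) (hK : K.card = 3)
    (hKT : K ⊆ Tᶜ) : ∃ g : Fin 10 → Fin 6, Set.InjOn g (Tᶜ : Finset (Fin 10)) ∧
      K.image g = {0, 2, 4} ∧ (Tᶜ \ K).image g = {1, 3, 5} := by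
  have c2 : (Tᶜ \ K).card = 3 := by
    rw [Finset.card_sdiff_of_subset hKT, Finset.card_compl, hT, hK]; rfl
  have e1 : Nonempty (K ≃ ({0, 2, 4} : Finset (Fin 6))) :=
    ⟨Finset.equivOfCardEq (by rw [hK]; rfl)⟩
  have e2 : Nonempty ((Tᶜ \ K : Finset (Fin 10)) ≃ ({1, 3, 5} : Finset (Fin 6))) :=
    ⟨Finset.equivOfCardEq (by rw [c2]; rfl)⟩
  obtain ⟨e1⟩ := e1
  obtain ⟨e2⟩ := e2
  let g : Fin 10 → Fin 6 := fun x =>
    if h : x ∈ K then (e1 ⟨x, h⟩ : Fin 6) else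
      if h' : x ∈ Tᶜ \ K then (e2 ⟨x, h'⟩ : Fin 6) else 0
  have g1 : ∀ x (h : x ∈ K), g x = (e1 ⟨x, h⟩ : Fin 6) := fun x h => by simp only [g, dif_pos h]
  have g2 : ∀ x (h : x ∈ Tᶜ \ K), g x = (e2 ⟨x, h⟩ : Fin 6) := fun x h => by
    simp only [g, dif_neg (Finset.mem_sdiff.1 h).2, dif_pos h]
  have m1 : ∀ x, x ∈ K → g x ∈ ({0, 2, 4} : Finset (Fin 6)) := fun x h => by
    rw [g1 x h]; exact (e1 ⟨x, h⟩).2
  have m2 : ∀ x, x ∈ Tᶜ \ K → g x ∈ ({1, 3, 5} : Finset (Fin 6)) := fun x h => by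
    rw [g2 x h]; exact (e2 ⟨x, h⟩).2
  have dd : Disjoint ({0, 2, 4} : Finset (Fin 6)) {1, 3, 5} := by decide
  refine ⟨g, ?_, ?_, ?_⟩
  · intro x hx y hy hxy
    have hx' : x ∈ Tᶜ := by exact_mod_cast hx
    have hy' : y ∈ Tᶜ := by exact_mod_cast hy
    by_cases hxK : x ∈ K
    · by_cases hyK : y ∈ K
      · rw [g1 x hxK, g1 y hyK] at hxy
        have := e1.injective (Subtype.ext hxy)
        simpa using this
      · exfalso
        exact (Finset.disjoint_left.1 dd) (m1 x hxK)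
          (by rw [hxy]; exact m2 y (Finset.mem_sdiff.2 ⟨hy', hyK⟩))
    · by_cases hyK : y ∈ K
      · exfalso
        exact (Finset.disjoint_left.1 dd) (m1 y hyK)
          (by rw [← hxy]; exact m2 x (Finset.mem_sdiff.2 ⟨hx', hxK⟩))
      · rw [g2 x (Finset.mem_sdiff.2 ⟨hx', hxK⟩), g2 y (Finset.mem_sdiff.2 ⟨hy', hyK⟩)] at hxy
        have := e2.injective (Subtype.ext hxy)
        simpa using this
  · ext a
    constructor
    · intro ha
      obtain ⟨x, hx, rfl⟩ := Finset.mem_image.1 ha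
      exact m1 x hx
    · intro ha
      refine Finset.mem_image.2 ⟨(e1.symm ⟨a, ha⟩ : Fin 10), (e1.symm ⟨a, ha⟩).2, ?_⟩
      rw [g1 _ (e1.symm ⟨a, ha⟩).2]
      simp
  · ext a
    constructor
    · intro ha
      obtain ⟨x, hx, rfl⟩ := Finset.mem_image.1 ha
      exact m2 x hx
    · intro ha
      refine Finset.mem_image.2 ⟨(e2.symm ⟨a, ha⟩ : Fin 10), (e2.symm ⟨a, ha⟩).2, ?_⟩
      rw [g2 _ (e2.symm ⟨a, ha⟩).2]
      simp

theorem split10 (T K : Finset (Fin 10)) (hT : T.card = 4) (hK : K.card = 3) (hKT : K ⊆ Tᶜ)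
    (D0 D1 D2 D3 : Ch (Fr (Fin 10))) (h0 : bd D0 = sg []) (h1 : bd D1 = D0 + mp s12 D0)
    (h2 : bd D2 = D1 + mp s12 D1) (h3 : bd D3 = D2 + mp s12 D2) (h3' : bd D3 = D2 + mp s23 D2)
    (hs : D3 + mp s12 D3 = D3 + mp s23 D3)
    (a0 : Sup (fun l => l.length = 1 ∧ Dj l ∧ Sm l ∧ cs1 l ⊆ Tᶜ ∧ cs2 l ⊆ Tᶜ ∧ cs3 l ⊆ Tᶜ) D0)
    (a1 : Sup (fun l => l.length = 2 ∧ Dj l ∧ Sm l ∧ cs1 l ⊆ Tᶜ ∧ cs2 l ⊆ Tᶜ ∧ cs3 l ⊆ Tᶜ) D1)
    (a2 : Sup (fun l => l.length = 3 ∧ Dj l ∧ Sm l ∧ cs1 l ⊆ Tᶜ ∧ cs2 l ⊆ Tᶜ ∧ cs3 l ⊆ Tᶜ) D2)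
    (a3 : Sup (fun l => l.length = 4 ∧ Dj l ∧ Sm l ∧ cs1 l ⊆ Tᶜ ∧ cs2 l ⊆ Tᶜ ∧ cs3 l ⊆ Tᶜ) D3) :
    ev (chi K) D2 + ev (chi (Tᶜ \ K)) D2 = 1 := by
  obtain ⟨g, hg, gK, gK'⟩ := exists_recolor T K hT hK hKT
  have m12 : ∀ c : Ch (Fr (Fin 10)), mp (frm g) (mp s12 c) = mp s12 (mp (frm g) c) := fun c => by
    rw [mp_mp, mp_mp, frm_s12]
  have m23 : ∀ c : Ch (Fr (Fin 10)), mp (frm g) (mp s23 c) = mp s23 (mp (frm g) c) := fun c => by
    rw [mp_mp, mp_mp, frm_s23]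
  have key := split (mp (frm g) D0) (mp (frm g) D1) (mp (frm g) D2) (mp (frm g) D3)
    (by rw [← mp_bd, h0, mp_sg]; rfl)
    (by rw [← mp_bd, h1, map_add, m12])
    (by rw [← mp_bd, h2, map_add, m12])
    (by rw [← mp_bd, h3, map_add, m12])
    (by rw [← mp_bd, h3', map_add, m23])
    (by rw [← m12, ← m23, ← map_add, ← map_add, hs])
    (sup_frm hg a0) (sup_frm hg a1) (sup_frm hg a2) (sup_frm hg a3)
  rw [← gK, ← gK', ev_mp, ev_mp] at key
  rw [← key]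
  congr 1
  · exact (ev_congr a2 fun l hl => chi_frm hg hKT hl.2.2.2.1).symm
  · exact (ev_congr a2 fun l hl => chi_frm hg Finset.sdiff_subset hl.2.2.2.1).symm

end Crest.Agent.R050
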